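import Vale.Agent.P076.NS.Defs

/-! # P076 / H879 : the induction of the lossy half, statements (helper879)

Sets of FINEST caps (level `k`); `Uni j` = union of caps of level `j`; `Lab j N` = the sets take at most `N` values on balls of
radius `100 ^ j * D ^ (2 j)`. -/

set_option autoImplicit false

open MeasureTheory Complex Set Vale.Agent.P122.C2 Vale.Agent.P122.AN Vale.Agent.P076.NS
open scoped ENNReal NNReal FourierTransform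

namespace Vale.Agent.P076.H879

/-- sum of the finest pieces of `G` -/
noncomputable def sF (g : Z2 → E3 → ℂ) (G : Finset Z2) (z : E3) : ℂ := ∑ θ ∈ G, 𝓕⁻ (g θ) z

/-- energy of one finest piece on its tube through the cube `B` -/
noncomputable def u1 (M k n : ℕ) (g : Z2 → E3 → ℂ) (θ : Z2) (B : Fin 3 → ℤ) : ℝ≥0∞ :=
  ENNReal.ofReal (((2:ℝ) ^ (4 * k * n))⁻¹) *
    ∫⁻ z, ‖𝓕⁻ (g θ) z‖ₑ ^ 2 * wg M 0 (2 ^ (k * n)) (2 ^ (k * n)) (2 ^ (2 * k * n)) (slp n k θ) (z - cB n B)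

/-- energy of the finest pieces of `G` on their tubes through the cube `B` -/
noncomputable def uF (M k n : ℕ) (g : Z2 → E3 → ℂ) (G : Finset Z2) (B : Fin 3 → ℤ) : ℝ≥0∞ := ∑ θ ∈ G, u1 M k n g θ B

/-- the ancestor of level `j` of the cap `θ` of level `k` -/
def anc (k n j : ℕ) (θ : Z2) : Z2 := fun i => θ i / 2 ^ ((k - j) * n)

/-- `G` is a union of caps of level `j` -/
def Uni (k n j : ℕ) (G : Finset Z2) : Prop :=
  ∀ θ ∈ G, ∀ θ' ∈ desc k n 0 0, anc k n j θ' = anc k n j θ → θ' ∈ G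

/-- the sets `G B` take at most `N` values in a ball of radius `100 ^ j * D ^ (2 j)` (no condition for `j ≤ 1`) -/
def Lab (n j N : ℕ) (Y : Finset (Fin 3 → ℤ)) (G : (Fin 3 → ℤ) → Finset Z2) : Prop :=
  2 ≤ j → ∀ p : E3, ((Y.filter fun B => dist (cB n B) p ≤ 100 ^ j * 2 ^ (2 * j * n)).image G).card ≤ N

/-- the data of the induction -/
structure Hyp (C0 : ℝ) (M k n j N : ℕ) (g : Z2 → E3 → ℂ) (Y : Finset (Fin 3 → ℤ)) (G : (Fin 3 → ℤ) → Finset Z2)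
    (γ β b : ℝ) : Prop where
  par : Par C0 k n g
  γ0 : 0 < γ
  dim : Dim2 k n Y γ
  β0 : 0 < β
  b0 : 0 < b
  b1 : b ≤ 1
  lab : Lab n j N Y G
  sub : ∀ B ∈ Y, G B ⊆ desc k n 0 0
  uni : ∀ B ∈ Y, Uni k n j (G B)
  amp : ∀ B ∈ Y, ENNReal.ofReal (β ^ 6) ≤ b6 M n B (sF g (G B))
  enr : b = 1 ∨ ∀ B ∈ Y, uF M k n g (G B) B ≤ ENNReal.ofReal (b * (β ^ 2 * (γ / 2 ^ (k * n)) ^ (1 / 3 : ℝ)))

/-- the estimate -/
def Est (c1 : ℝ) (k n : ℕ) (g : Z2 → E3 → ℂ) (Y : Finset (Fin 3 → ℤ)) (γ β b A : ℝ) : Prop :=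
  ENNReal.ofReal (β ^ 2 * Y.card) ≤
    ENNReal.ofReal (A * b ^ c1 * γ ^ (2 / 3 : ℝ) * 2 ^ (4 / 3 * (k * n : ℝ))) * ms k n g

/-- the estimate holds for all data -/
def Claim (c1 C0 : ℝ) (M k n j N : ℕ) (A : ℝ) : Prop :=
  ∀ (g : Z2 → E3 → ℂ) (Y : Finset (Fin 3 → ℤ)) (G : (Fin 3 → ℤ) → Finset Z2) (γ β b : ℝ),
    Hyp C0 M k n j N g Y G γ β b → Est c1 k n g Y γ β b A

/-- the part of `G` in the caps of level `1` of `S` -/
noncomputable def cut (k n : ℕ) (G S : Finset Z2) : Finset Z2 := G.filter fun θ => anc k n 1 θ ∈ S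

/-- the function is broad at `B` -/
def BroadAt (c : ℝ) (M k n : ℕ) (g : Z2 → E3 → ℂ) (G : Finset Z2) (β : ℝ) (B : Fin 3 → ℤ) : Prop :=
  ∀ S ⊆ kids n 0, Strip 1 n S → b6 M n B (sF g (cut k n G S)) < ENNReal.ofReal (2 ^ (-(6 * c * n)) * β ^ 6)

/-- the estimate holds for all broad data -/
def Broad (c1 C0 c : ℝ) (M k n j N : ℕ) (A : ℝ) : Prop :=
  ∀ (g : Z2 → E3 → ℂ) (Y : Finset (Fin 3 → ℤ)) (G : (Fin 3 → ℤ) → Finset Z2) (γ β b : ℝ),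
    Hyp C0 M k n j N g Y G γ β b → (∀ B ∈ Y, BroadAt c M k n g (G B) β B) → Est c1 k n g Y γ β b A

/-- [STEP] the narrow step -/
def StSTEP : Prop := ∀ (c1 C0 c ε : ℝ) (M N : ℕ), 0 ≤ c1 → 1 ≤ C0 → 0 < c → 0 < ε → 2 * c + ε ≤ 1 → 4 ≤ M → 1 ≤ N →
  ∃ C : ℝ, 1 ≤ C ∧ ∀ (k n j : ℕ) (A' Ab : ℝ), 3 ≤ k → j ≤ k → 1 ≤ n → 0 ≤ A' → 0 ≤ Ab →
    Claim c1 C0 M (k - 1) n (j - 1) N A' → Broad c1 C0 c M k n j N Ab →
    Claim c1 C0 M k n j N (C * (n:ℝ) ^ (4 + c1) * 2 ^ ((2 * c + ε) * (1 + c1) * n) * A' + Ab)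

end Vale.Agent.P076.H879
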