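import Vale.Agent.P076.H879.Nar

/-! # P076 / H879 : the bound for one class of narrow cubes -/

set_option autoImplicit false

open MeasureTheory Complex Set Vale.Agent.P122.C2 Vale.Agent.P122.AN Vale.Agent.P076.NS Vale.Agent.P076.H429
open scoped ENNReal NNReal FourierTransform

namespace Vale.Agent.P076.H879

theorem sF_empty (g : Z2 → E3 → ℂ) : sF g ∅ = fun _ => 0 := by
  funext z; unfold sF; simp

theorem b6_zero (M n : ℕ) (B : Fin 3 → ℤ) : b6 M n B (fun _ => 0) = 0 := by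
  unfold b6; simp

/-- labels of a group -/
theorem lab_card {C0 γ β b : ℝ} {M k n j N : ℕ} {g : Z2 → E3 → ℂ} {Y : Finset (Fin 3 → ℤ)} {G : (Fin 3 → ℤ) → Finset Z2}
    (H : Hyp C0 M k n j N g Y G γ β b) (hN : 1 ≤ N) (hk : 1 ≤ k) (τ : Z2) (hτ : ∀ i, 0 ≤ τ i ∧ τ i < 2 ^ n) (B' : Fin 3 → ℤ)
    (V : Finset (Finset Z2)) (hV : ∀ l ∈ V, ∃ B ∈ Y, bx n τ B = B' ∧ cut k n (G B) {τ} = l ∧ l.Nonempty) :
    V.card ≤ N := by
  classical
  rcases Nat.lt_or_ge 1 j with hj2 | hj2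
  · have h2 : 2 ≤ j := hj2
    have hr2 : 6 * 2 ^ (2 * n) * (2:ℝ) ^ (2 * n) ≤ 100 ^ j * 2 ^ (2 * j * n) := by
      have h1 : (100:ℝ) ≤ 100 ^ j := le_self_pow₀ (by norm_num) (by omega)
      have h3 : (2:ℝ) ^ (2 * n) * 2 ^ (2 * n) ≤ 2 ^ (2 * j * n) := by
        rw [← pow_add]
        apply pow_le_pow_right₀ (by norm_num)
        nlinarith
      have h4 : (0:ℝ) ≤ 2 ^ (2 * n) * 2 ^ (2 * n) := by positivity
      calc 6 * 2 ^ (2 * n) * (2:ℝ) ^ (2 * n) = 6 * (2 ^ (2 * n) * 2 ^ (2 * n)) := by ring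
        _ ≤ 100 ^ j * 2 ^ (2 * j * n) := by gcongr; linarith
    set p' := cB n B' with hp'
    set p : E3 := !₂[2 ^ n * p' 0 + sl n τ 0 * (2 ^ (2 * n) * p' 2), 2 ^ n * p' 1 + sl n τ 1 * (2 ^ (2 * n) * p' 2),
        2 ^ (2 * n) * p' 2] with hp
    have hsub : V ⊆
        ((Y.filter fun B => dist (cB n B) p ≤ 100 ^ j * 2 ^ (2 * j * n)).image G).image fun G0 => cut k n G0 {τ} := by
      intro S hS
      obtain ⟨B, hBY, hbx, hl, _⟩ := hV S hS
      rw [Finset.image_image, Finset.mem_image]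
      refine ⟨B, Finset.mem_filter.2 ⟨hBY, ?_⟩, hl⟩
      refine (loc_ball n τ hτ B p' (2 ^ (2 * n)) le_rfl ?_).trans hr2
      rw [hbx, hp', dist_self]; positivity
    refine (Finset.card_le_card hsub).trans (Finset.card_image_le.trans (le_trans (le_of_eq ?_) (H.lab h2 p)))
    congr
  · -- all labels are equal to `desc k n 1 τ`
    have hall : V ⊆ {desc k n 1 τ} := by
      intro S hS
      obtain ⟨B, hBY, hbx, hl, θ, hθ⟩ := hV S hS
      rw [Finset.mem_singleton, ← hl]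
      rw [← hl] at hθ
      apply Finset.Subset.antisymm cut_sub
      intro θ2 h2
      unfold cut at hθ ⊢
      rw [Finset.mem_filter, Finset.mem_singleton] at hθ ⊢
      refine ⟨?_, anc_mem.2 h2⟩
      have m2 := desc_one_sub hk hτ h2
      have m1 := H.sub B hBY hθ.1
      refine H.uni B hBY θ hθ.1 θ2 m2 ?_
      rcases (by omega : j = 0 ∨ j = 1) with h0 | h0
      · subst h0
        have z : ∀ θ ∈ desc k n 0 0, anc k n 0 θ = 0 := by
          intro θ hθ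
          funext i
          exact Vale.Agent.P122.AN.mem_desc.1 hθ i
        rw [z θ2 m2, z θ m1]
      · subst h0
        rw [anc_mem.2 h2, hθ.2]
    exact (Finset.card_le_card hall).trans (by simpa using hN)

theorem class_bound (M : ℕ) (hM : 4 ≤ M) : ∃ s : ℝ, 1 ≤ s ∧ ∀ (c1 C0 A' γ β b X : ℝ) (k n j N I i l : ℕ) (g : Z2 → E3 → ℂ)
    (Y Z : Finset (Fin 3 → ℤ)) (G T Ts : (Fin 3 → ℤ) → Finset Z2),
    0 ≤ c1 → 3 ≤ k → j ≤ k → 1 ≤ N → 1 ≤ I → 0 < X → X ≤ 1 → 0 ≤ A' → Hyp C0 M k n j N g Y G γ β b →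
    (∀ B ∈ Z, B ∈ Y ∧ Cho M k n g (G B) γ β b X I B i (T B) (Ts B) ∧ 2 ^ l ≤ (T B).card ∧ (T B).card < 2 ^ (l + 1)) →
    Claim c1 C0 M (k - 1) n (j - 1) N A' →
    ENNReal.ofReal (β ^ 2 * Z.card) ≤
      ENNReal.ofReal (4 * N * (4 * n + 3) * (289 * s) * (16 * (I / X)) * A' * (6 ^ M * (16 * s / 5) * (I / X)) ^ c1 * b ^ c1 *
        γ ^ (2 / 3 : ℝ) * 2 ^ (4 / 3 * (k * n : ℝ))) * ms k n g := by
  classical
  obtain ⟨s, hs, HK⟩ := key M hM
  refine ⟨s, hs, ?_⟩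
  intro c1 C0 A' γ β b X k n j N I i l g Y Z G T Ts hc1 hk hj hN hI hX hX1 hA' H hZ HC
  rcases Z.eq_empty_or_nonempty with hZe | ⟨B0, hB0⟩
  · rw [hZe]; simp
  have hs0 : 0 < s := by linarith
  have hγ := H.γ0
  have hβ := H.β0
  have hb := H.b0
  have hI0 : (0:ℝ) < I := by exact_mod_cast hI
  have hI1 : (1:ℝ) ≤ I := by exact_mod_cast hI
  have hN0 : (0:ℝ) < N := by exact_mod_cast hN
  have h4i : (4:ℝ) ^ i ≤ 16 * (I / X) * 2 ^ l := by
    have h1 := (hZ B0 hB0).2.1.big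
    have h2 : (((T B0).card : ℕ) : ℝ) ≤ 2 ^ (l + 1) := by exact_mod_cast (hZ B0 hB0).2.2.2.le
    have h3 : X * 4 ^ i ≤ 8 * I * 2 ^ (l + 1) := h1.trans (by gcongr)
    have e : 16 * ((I:ℝ) / X) * 2 ^ l = 8 * I * 2 ^ (l + 1) / X := by rw [pow_succ]; ring
    rw [e, le_div_iff₀ hX]
    linarith
  set κ0 : ℝ := 6 ^ M * (16 * s / 5) with hκ0
  have hκ1 : 1 ≤ κ0 := by
    have h1 : (1:ℝ) ≤ 6 ^ M := one_le_pow₀ (by norm_num)
    have h2 : (1:ℝ) ≤ 16 * s / 5 := by linarith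
    rw [hκ0]; nlinarith
  have hIX : 1 ≤ (I:ℝ) / X := by rw [le_div_iff₀ hX]; linarith
  set b' : ℝ := min 1 (κ0 * (I / X) * b) with hb'
  have hb'0 : 0 < b' := lt_min one_pos (by positivity)
  have hb'1 : b' ≤ 1 := min_le_left _ _
  have hb'2 : b' ^ c1 ≤ (κ0 * (I / X)) ^ c1 * b ^ c1 := by
    rw [← Real.mul_rpow (by positivity) hb.le]
    exact Real.rpow_le_rpow hb'0.le (min_le_right _ _) hc1
  set v : ℝ := 17 / s * (β ^ 2 / 4 ^ i * (γ / 2 ^ (k * n)) ^ (1 / 3 : ℝ)) with hv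
  have hv0 : 0 < v := by positivity
  -- counting
  have hT : ∀ B ∈ Z, Ts B ⊆ kids n 0 := fun B hB => (hZ B hB).2.1.subs.trans (hZ B hB).2.1.sub
  have hnonempty : ∀ B ∈ Z, ∀ τ ∈ Ts B, (cut k n (G B) {τ}).Nonempty := by
    intro B hB τ hτ
    by_contra hcon
    rw [Finset.not_nonempty_iff_eq_empty] at hcon
    have h1 := (hZ B hB).2.1.amp τ ((hZ B hB).2.1.subs hτ)
    rw [hcon, sF_empty, b6_zero, ENNReal.zero_rpow_of_pos (by norm_num)] at h1
    rw [nonpos_iff_eq_zero, ENNReal.ofReal_eq_zero] at h1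
    have : 0 < β ^ 2 / 4 ^ i := by positivity
    linarith
  have hNcard : ∀ τ ∈ kids n 0, ∀ B', ∀ V : Finset (Finset Z2),
      (∀ l ∈ V, ∃ B ∈ Z, τ ∈ Ts B ∧ bx n τ B = B' ∧ cut k n (G B) {τ} = l) → V.card ≤ N := by
    intro τ hτ B' V hV
    refine lab_card H hN (by omega) τ (kids_iff.1 hτ) B' V ?_
    intro l hl
    obtain ⟨B, hB, h1, h2, h3⟩ := hV l hl
    exact ⟨B, (hZ B hB).1, h2, h3, h3 ▸ hnonempty B hB τ h1⟩
  have hQ : ∀ τ ∈ kids n 0, ∀ B', ∀ U : Finset (Fin 3 → ℤ), (∀ B ∈ U, B ∈ Z ∧ τ ∈ Ts B ∧ bx n τ B = B') → U.card < 2 ^ (4 * n + 3) := by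
    intro τ _ B' U hU
    have h1 := card_bx n τ B' U fun B hB => (hU B hB).2.2
    have h2 : ((U.card : ℕ) : ℝ) < 2 ^ (4 * n + 3) := by
      refine lt_of_le_of_lt h1 ?_
      rw [pow_add]
      have : (0:ℝ) < 2 ^ (4 * n) := by positivity
      linarith
    exact_mod_cast h2
  obtain ⟨lam, hcount⟩ := count (kids n 0) Z Ts (bx n) (fun τ B => cut k n (G B) {τ}) N (4 * n + 3) hT hNcard hQ
  -- the bound for each cap and each dyadic class
  have hkey : ∀ τ ∈ kids n 0, ∀ q : ℕ,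
      ENNReal.ofReal (2 ^ q * β ^ 2 * ((cls Z Ts (bx n) (fun τ B => cut k n (G B) {τ}) lam τ q).card : ℝ)) ≤
      ENNReal.ofReal (289 * s * 4 ^ i * A' * b' ^ c1 * γ ^ (2 / 3 : ℝ) * 2 ^ (4 / 3 * (k * n : ℝ)) * 2 ^ (2 * n)) *
        ms (k - 1) n (rs1 k n τ g) := by
    intro τ hτ q
    refine HK c1 C0 A' b' γ β b k n j N q i g Y _ G (lam τ) (grp Z Ts (bx n) (fun τ B => cut k n (G B) {τ}) lam τ) τ hk hj hτ
      hb'0 hb'1 hA' H ?_ HC
    have hmem : ∀ B', ∀ B ∈ grp Z Ts (bx n) (fun τ B => cut k n (G B) {τ}) lam τ B', B ∈ Z ∧ τ ∈ Ts B ∧ bx n τ B = B' ∧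
        cut k n (G B) {τ} = lam τ B' := fun B' B hB => mem_grp hB
    refine ⟨?_, ?_, ?_, ?_, ?_⟩
    · intro B' hB'
      exact mem_cls hB'
    · intro B' _ B hB
      obtain ⟨h1, h2, h3, h4⟩ := hmem B' B hB
      exact ⟨(hZ B h1).1, h3⟩
    · intro B' _ B hB
      exact (hmem B' B hB).2.2.2
    · intro B' _ B hB
      obtain ⟨h1, h2, h3, h4⟩ := hmem B' B hB
      have h5 := (hZ B h1).2.1.amp τ ((hZ B h1).2.1.subs h2)
      rw [h4] at h5
      have h6 := ENNReal.rpow_le_rpow h5 (by norm_num : (0:ℝ) ≤ 3)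
      rw [← ENNReal.rpow_mul, ENNReal.ofReal_rpow_of_nonneg (by positivity) (by norm_num)] at h6
      norm_num at h6
      refine le_trans (le_of_eq ?_) h6
      congr 1
      rw [div_pow, ← pow_mul, ← pow_mul, mul_comm i 3]
    · by_cases hb1 : b' = 1
      · exact Or.inl hb1
      · refine Or.inr fun B' _ B hB => ?_
        obtain ⟨h1, h2, h3, h4⟩ := hmem B' B hB
        have hb'eq : b' = κ0 * (I / X) * b := by
          rcases min_choice 1 (κ0 * (I / X) * b) with h | h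
          · exact absurd h hb1
          · exact h
        have hbne : b ≠ 1 := by
          intro h
          apply hb1
          rw [hb', h, mul_one, min_eq_left]
          nlinarith
        rcases (hZ B h1).2.1.enr with h | h
        · exact absurd h hbne
        · have h5 := h τ h2
          rw [h4] at h5
          have hTc : (0:ℝ) < (T B).card := by exact_mod_cast (hZ B h1).2.1.ne.card_pos
          refine (mul_le_mul_right h5 (ENNReal.ofReal (6 ^ M))).trans ?_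
          rw [← ENNReal.ofReal_mul (by positivity)]
          apply ENNReal.ofReal_le_ofReal
          rw [hb'eq, hκ0]
          have hbig := (hZ B h1).2.1.big
          set t : ℝ := (γ / 2 ^ (k * n)) ^ (1 / 3 : ℝ) with ht
          have ht0 : 0 < t := by positivity
          have e1 : 6 ^ M * (2 * (b * (β ^ 2 * t)) / (T B).card) = (6 ^ M * 2 * b * β ^ 2 * t) * (1 / (T B).card) := by ring
          have e2 : 6 ^ M * (16 * s / 5) * (I / X) * b * (17 / s * (β ^ 2 / 4 ^ i * t)) =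
            (6 ^ M * 2 * b * β ^ 2 * t) * (17 / 5 * (8 * I / (X * 4 ^ i))) := by field_simp; ring
          rw [e1, e2]
          gcongr ?_ * ?_
          have h8 : 1 / ((T B).card : ℝ) ≤ 8 * I / (X * 4 ^ i) := by
            rw [div_le_div_iff₀ hTc (by positivity)]
            linarith
          have h9 : 0 ≤ 8 * I / (X * 4 ^ i) := by positivity
          linarith
  -- sum
  set E : ℝ := 289 * s * 4 ^ i * A' * b' ^ c1 * γ ^ (2 / 3 : ℝ) * 2 ^ (4 / 3 * (k * n : ℝ)) with hE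
  have hE0 : 0 ≤ E := by positivity
  have hsum : ∀ q : ℕ, ∑ τ ∈ kids n 0, ENNReal.ofReal (2 ^ q * β ^ 2 * ((cls Z Ts (bx n) (fun τ B => cut k n (G B) {τ}) lam τ q).card : ℝ)) ≤
      ENNReal.ofReal E * ms k n g := by
    intro q
    calc _ ≤ ∑ τ ∈ kids n 0, ENNReal.ofReal (E * 2 ^ (2 * n)) * ms (k - 1) n (rs1 k n τ g) := Finset.sum_le_sum fun τ hτ => hkey τ hτ q
      _ = ENNReal.ofReal (E * 2 ^ (2 * n)) * (ENNReal.ofReal (((2:ℝ) ^ (2 * n))⁻¹) * ms k n g) := by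
          rw [← Finset.mul_sum, sum_ms1 (by omega) g]
      _ = _ := by
          rw [← mul_assoc, ← ENNReal.ofReal_mul (by positivity)]
          congr 2
          field_simp
  have hhalf : (2:ℝ) ^ l * Z.card ≤ 2 * ((∑ B ∈ Z, (Ts B).card : ℕ) : ℝ) := by
    push_cast
    rw [Finset.mul_sum]
    calc (2:ℝ) ^ l * Z.card = ∑ B ∈ Z, (2:ℝ) ^ l := by rw [Finset.sum_const, nsmul_eq_mul]; ring
      _ ≤ _ := by
          apply Finset.sum_le_sum
          intro B hB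
          have h1 : (2:ℝ) ^ l ≤ (T B).card := by exact_mod_cast (hZ B hB).2.2.1
          exact h1.trans (hZ B hB).2.1.half
  have hmain : ENNReal.ofReal (β ^ 2 * (2 ^ l * Z.card)) ≤ ENNReal.ofReal (4 * N * (4 * n + 3) * E) * ms k n g := by
    calc ENNReal.ofReal (β ^ 2 * (2 ^ l * Z.card))
        ≤ ENNReal.ofReal (∑ q ∈ Finset.range (4 * n + 3), ∑ τ ∈ kids n 0,
          (4 * N) * (2 ^ q * β ^ 2 * ((cls Z Ts (bx n) (fun τ B => cut k n (G B) {τ}) lam τ q).card : ℝ))) := by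
          apply ENNReal.ofReal_le_ofReal
          have h1 : β ^ 2 * (2 ^ l * (Z.card : ℝ)) ≤ β ^ 2 * (2 * (N * ∑ q ∈ Finset.range (4 * n + 3), ∑ τ ∈ kids n 0,
            (2:ℝ) ^ (q + 1) * ((cls Z Ts (bx n) (fun τ B => cut k n (G B) {τ}) lam τ q).card : ℝ))) := by
            exact mul_le_mul_of_nonneg_left (hhalf.trans (mul_le_mul_of_nonneg_left hcount (by norm_num))) (by positivity)
          refine h1.trans (le_of_eq ?_)
          rw [Finset.mul_sum, Finset.mul_sum, Finset.mul_sum]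
          apply Finset.sum_congr rfl; intro q _
          rw [Finset.mul_sum, Finset.mul_sum, Finset.mul_sum]
          apply Finset.sum_congr rfl; intro τ _
          rw [pow_succ]; ring
      _ = ENNReal.ofReal (4 * N) * ∑ q ∈ Finset.range (4 * n + 3), ∑ τ ∈ kids n 0,
          ENNReal.ofReal (2 ^ q * β ^ 2 * ((cls Z Ts (bx n) (fun τ B => cut k n (G B) {τ}) lam τ q).card : ℝ)) := by
          rw [ENNReal.ofReal_sum_of_nonneg (fun q _ => Finset.sum_nonneg fun τ _ => by positivity), Finset.mul_sum]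
          apply Finset.sum_congr rfl; intro q _
          rw [ENNReal.ofReal_sum_of_nonneg (fun τ _ => by positivity), Finset.mul_sum]
          apply Finset.sum_congr rfl; intro τ _
          rw [ENNReal.ofReal_mul (by positivity)]
      _ ≤ ENNReal.ofReal (4 * N) * ∑ q ∈ Finset.range (4 * n + 3), ENNReal.ofReal E * ms k n g := by
          gcongr
          exact hsum _
      _ = _ := by
          rw [Finset.sum_const, Finset.card_range, nsmul_eq_mul, ← ENNReal.ofReal_natCast, ← mul_assoc, ← mul_assoc,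
            ← ENNReal.ofReal_mul (by positivity), ← ENNReal.ofReal_mul (by positivity)]
          congr 2
          push_cast
          ring
  -- divide by 2^l
  have h2l : (0:ℝ) < 2 ^ l := by positivity
  have hdiv : ENNReal.ofReal (β ^ 2 * Z.card) ≤ ENNReal.ofReal (4 * N * (4 * n + 3) * E / 2 ^ l) * ms k n g := by
    have e1 : β ^ 2 * (2 ^ l * (Z.card : ℝ)) = 2 ^ l * (β ^ 2 * Z.card) := by ring
    have e2 : 4 * N * (4 * n + 3) * E = 2 ^ l * (4 * N * (4 * n + 3) * E / 2 ^ l) := by field_simp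
    rw [e1, ENNReal.ofReal_mul h2l.le, e2, ENNReal.ofReal_mul h2l.le, mul_assoc] at hmain
    exact (ENNReal.mul_le_mul_iff_right (by
      rw [Ne, ENNReal.ofReal_eq_zero, not_le]; positivity) ENNReal.ofReal_ne_top).1 hmain
  refine hdiv.trans ?_
  gcongr
  rw [div_le_iff₀ h2l, hE]
  calc 4 * N * (4 * n + 3) * (289 * s * 4 ^ i * A' * b' ^ c1 * γ ^ (2 / 3 : ℝ) * 2 ^ (4 / 3 * (k * n : ℝ)))
      ≤ 4 * N * (4 * n + 3) * (289 * s * (16 * (I / X) * 2 ^ l) * A' * ((κ0 * (I / X)) ^ c1 * b ^ c1) * γ ^ (2 / 3 : ℝ) *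
        2 ^ (4 / 3 * (k * n : ℝ))) := by gcongr
    _ = _ := by ring

end Vale.Agent.P076.H879
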