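import Vale.Agent.P076.H879.Pig

/-! # P076 / H879 : counting of incidences -/

set_option autoImplicit false

open scoped ENNReal

namespace Vale.Agent.P076.H879

open Classical in
/-- the members of the group of `B'` with the popular label -/
noncomputable def grp {ι α α' Λ : Type*} (Z : Finset α) (T : α → Finset ι) (bx : ι → α → α') (lab : ι → α → Λ)
    (l : ι → α' → Λ) (τ : ι) (B' : α') : Finset α :=
  Z.filter fun B => (τ ∈ T B ∧ bx τ B = B') ∧ lab τ B = l τ B'

open Classical in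
/-- the boxes of the dyadic class `q` -/
noncomputable def cls {ι α α' Λ : Type*} (Z : Finset α) (T : α → Finset ι) (bx : ι → α → α') (lab : ι → α → Λ)
    (l : ι → α' → Λ) (τ : ι) (q : ℕ) : Finset α' :=
  (Z.image (bx τ)).filter fun B' => 2 ^ q ≤ (grp Z T bx lab l τ B').card ∧ (grp Z T bx lab l τ B').card < 2 ^ (q + 1)

open Classical in
theorem mem_grp {ι α α' Λ : Type*} {Z : Finset α} {T : α → Finset ι} {bx : ι → α → α'} {lab : ι → α → Λ}
    {l : ι → α' → Λ} {τ : ι} {B' : α'} {B : α} (h : B ∈ grp Z T bx lab l τ B') :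
    B ∈ Z ∧ τ ∈ T B ∧ bx τ B = B' ∧ lab τ B = l τ B' := by
  unfold grp at h
  rw [Finset.mem_filter] at h
  exact ⟨h.1, h.2.1.1, h.2.1.2, h.2.2⟩

open Classical in
theorem mem_cls {ι α α' Λ : Type*} {Z : Finset α} {T : α → Finset ι} {bx : ι → α → α'} {lab : ι → α → Λ}
    {l : ι → α' → Λ} {τ : ι} {q : ℕ} {B' : α'} (h : B' ∈ cls Z T bx lab l τ q) : 2 ^ q ≤ (grp Z T bx lab l τ B').card := by
  unfold cls at h
  exact (Finset.mem_filter.1 h).2.1

open Classical in
theorem count {ι α α' Λ : Type*} (S0 : Finset ι) (Z : Finset α) (T : α → Finset ι) (bx : ι → α → α')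
    (lab : ι → α → Λ) (N Q : ℕ) [Inhabited Λ] (hT : ∀ B ∈ Z, T B ⊆ S0)
    (hN' : ∀ τ ∈ S0, ∀ B', ∀ V : Finset Λ, (∀ l ∈ V, ∃ B ∈ Z, τ ∈ T B ∧ bx τ B = B' ∧ lab τ B = l) → V.card ≤ N)
    (hQ' : ∀ τ ∈ S0, ∀ B', ∀ U : Finset α, (∀ B ∈ U, B ∈ Z ∧ τ ∈ T B ∧ bx τ B = B') → U.card < 2 ^ Q) :
    ∃ l : ι → α' → Λ, ((∑ B ∈ Z, (T B).card : ℕ) : ℝ) ≤
      N * ∑ q ∈ Finset.range Q, ∑ τ ∈ S0, (2:ℝ) ^ (q + 1) * ((cls Z T bx lab l τ q).card : ℝ) := by
  have hN : ∀ τ ∈ S0, ∀ B', ((Z.filter fun B => τ ∈ T B ∧ bx τ B = B').image (lab τ)).card ≤ N := by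
    intro τ hτ B'
    refine hN' τ hτ B' _ ?_
    intro l hl
    rw [Finset.mem_image] at hl
    obtain ⟨B, hB, rfl⟩ := hl
    rw [Finset.mem_filter] at hB
    exact ⟨B, hB.1, hB.2.1, hB.2.2, rfl⟩
  have hQ : ∀ τ ∈ S0, ∀ B', (Z.filter fun B => τ ∈ T B ∧ bx τ B = B').card < 2 ^ Q := by
    intro τ hτ B'
    refine hQ' τ hτ B' _ ?_
    intro B hB
    rw [Finset.mem_filter] at hB
    exact ⟨hB.1, hB.2.1, hB.2.2⟩
  -- choice of the labels
  have hl : ∀ (τ : ι) (B' : α'), ∃ l : Λ, τ ∈ S0 → (Z.filter fun B => τ ∈ T B ∧ bx τ B = B').Nonempty →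
      ((Z.filter fun B => τ ∈ T B ∧ bx τ B = B').card : ℝ) ≤
        N * (((Z.filter fun B => τ ∈ T B ∧ bx τ B = B').filter fun B => lab τ B = l).card : ℝ) := by
    intro τ B'
    by_cases h : τ ∈ S0 ∧ (Z.filter fun B => τ ∈ T B ∧ bx τ B = B').Nonempty
    · obtain ⟨l, _, hl⟩ := popular _ (lab τ) N h.2 (hN τ h.1 B')
      exact ⟨l, fun _ _ => hl⟩
    · refine ⟨default, fun h1 h2 => absurd ⟨h1, h2⟩ h⟩
  choose l hl using hl
  refine ⟨l, ?_⟩
  have e1 : (∑ B ∈ Z, (T B).card : ℕ) = ∑ τ ∈ S0, (Z.filter fun B => τ ∈ T B).card := by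
    calc (∑ B ∈ Z, (T B).card : ℕ) = ∑ B ∈ Z, ∑ τ ∈ S0, (if τ ∈ T B then 1 else 0) := by
          apply Finset.sum_congr rfl; intro B hB
          rw [Finset.sum_ite_mem, Finset.inter_eq_right.2 (hT B hB)]
          simp
      _ = ∑ τ ∈ S0, ∑ B ∈ Z, (if τ ∈ T B then 1 else 0) := Finset.sum_comm
      _ = _ := by
          apply Finset.sum_congr rfl; intro τ _
          rw [Finset.card_filter]
  have e2 : ∀ τ ∈ S0, ((Z.filter fun B => τ ∈ T B).card : ℝ) ≤
      N * ∑ q ∈ Finset.range Q, (2:ℝ) ^ (q + 1) * ((cls Z T bx lab l τ q).card : ℝ) := by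
    intro τ hτ
    have e3 : ((Z.filter fun B => τ ∈ T B).card : ℕ) = ∑ B' ∈ Z.image (bx τ), (Z.filter fun B => τ ∈ T B ∧ bx τ B = B').card := by
      rw [Finset.card_eq_sum_card_fiberwise (f := bx τ) (t := Z.image (bx τ))]
      · apply Finset.sum_congr rfl; intro B' _
        congr 1
        rw [Finset.filter_filter]
      · intro B hB
        exact Finset.mem_coe.2 (Finset.mem_image_of_mem _ (Finset.mem_filter.1 (Finset.mem_coe.1 hB)).1)
    rw [e3]
    push_cast
    have e4 : ∀ B' ∈ Z.image (bx τ), ((Z.filter fun B => τ ∈ T B ∧ bx τ B = B').card : ℝ) ≤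
        N * ∑ q ∈ Finset.range Q, (2:ℝ) ^ (q + 1) * (if B' ∈ cls Z T bx lab l τ q then 1 else 0) := by
      intro B' hB'
      by_cases hne : (Z.filter fun B => τ ∈ T B ∧ bx τ B = B').Nonempty
      · have h1 := hl τ B' hτ hne
        have hg : ((Z.filter fun B => τ ∈ T B ∧ bx τ B = B').filter fun B => lab τ B = l τ B') = grp Z T bx lab l τ B' := by
          rw [Finset.filter_filter]; rfl
        rw [hg] at h1
        have hpos : (0:ℝ) < ((Z.filter fun B => τ ∈ T B ∧ bx τ B = B').card : ℝ) := by exact_mod_cast hne.card_pos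
        have hg0 : (grp Z T bx lab l τ B').card ≠ 0 := by
          intro h0
          rw [h0, Nat.cast_zero, mul_zero] at h1
          linarith
        set w := (grp Z T bx lab l τ B').card with hw
        have hwQ : w < 2 ^ Q := by
          refine lt_of_le_of_lt (Finset.card_le_card ?_) (hQ τ hτ B')
          intro B hB
          unfold grp at hB
          rw [Finset.mem_filter] at hB ⊢
          exact ⟨hB.1, hB.2.1⟩
        have hq1 : 2 ^ Nat.log 2 w ≤ w := Nat.pow_log_le_self 2 hg0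
        have hq2 : w < 2 ^ (Nat.log 2 w + 1) := Nat.lt_pow_succ_log_self (by norm_num) w
        have hqQ : Nat.log 2 w < Q := by
          by_contra hcon
          push Not at hcon
          have := Nat.pow_le_pow_right (show 0 < 2 by norm_num) hcon
          omega
        have hmem : B' ∈ cls Z T bx lab l τ (Nat.log 2 w) := by
          unfold cls
          rw [Finset.mem_filter]
          exact ⟨hB', hq1, hq2⟩
        have hs := Finset.single_le_sum (f := fun q => (2:ℝ) ^ (q + 1) * (if B' ∈ cls Z T bx lab l τ q then (1:ℝ) else 0))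
          (fun q _ => by split_ifs <;> positivity) (Finset.mem_range.2 hqQ)
        simp only [hmem, if_true, mul_one] at hs
        have hw2 : (w:ℝ) ≤ 2 ^ (Nat.log 2 w + 1) := by exact_mod_cast hq2.le
        calc _ ≤ (N:ℝ) * w := h1
          _ ≤ N * ∑ q ∈ Finset.range Q, (2:ℝ) ^ (q + 1) * (if B' ∈ cls Z T bx lab l τ q then (1:ℝ) else 0) := by
              gcongr
              exact hw2.trans hs
      · rw [Finset.not_nonempty_iff_eq_empty] at hne
        rw [hne]
        simp only [Finset.card_empty, Nat.cast_zero]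
        refine mul_nonneg (Nat.cast_nonneg _) (Finset.sum_nonneg fun q _ => ?_)
        split_ifs <;> positivity
    calc _ ≤ ∑ B' ∈ Z.image (bx τ), N * ∑ q ∈ Finset.range Q, (2:ℝ) ^ (q + 1) * (if B' ∈ cls Z T bx lab l τ q then (1:ℝ) else 0) :=
          Finset.sum_le_sum e4
      _ = N * ∑ q ∈ Finset.range Q, ∑ B' ∈ Z.image (bx τ), (2:ℝ) ^ (q + 1) * (if B' ∈ cls Z T bx lab l τ q then (1:ℝ) else 0) := by
          rw [← Finset.mul_sum, Finset.sum_comm]
      _ = _ := by
          congr 1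
          apply Finset.sum_congr rfl; intro q _
          rw [← Finset.mul_sum, Finset.sum_boole]
          congr 2
          congr 1
          ext B'
          rw [Finset.mem_filter]
          constructor
          · exact fun h => h.2
          · intro h
            refine ⟨?_, h⟩
            unfold cls at h
            exact (Finset.mem_filter.1 h).1
  rw [e1]
  push_cast
  calc _ ≤ ∑ τ ∈ S0, N * ∑ q ∈ Finset.range Q, (2:ℝ) ^ (q + 1) * ((cls Z T bx lab l τ q).card : ℝ) := Finset.sum_le_sum e2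
    _ = _ := by
        rw [← Finset.mul_sum, Finset.sum_comm]

end Vale.Agent.P076.H879
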