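import Vale.Agent.P076.H879.Defs
import Vale.Agent.P122.H466.Pie

/-! # P076 / H879 : decoupling on the cube `B` for partial sums -/

set_option autoImplicit false

open MeasureTheory Complex Set Vale.Agent.P122.C2 Vale.Agent.P122.AN Vale.Agent.P076.NS
open scoped ENNReal NNReal FourierTransform

namespace Vale.Agent.P076.H879

theorem anc_mem {k n : ℕ} {θ τ : Z2} : anc k n 1 θ = τ ↔ θ ∈ desc k n 1 τ := by
  rw [mem_desc]
  unfold anc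
  exact ⟨fun h i => congrFun h i, fun h => funext h⟩

theorem anc_kids {k n : ℕ} (hk : 1 ≤ k) {θ : Z2} (h : θ ∈ desc k n 0 0) : anc k n 1 θ ∈ kids n 0 := by
  exact (desc_succ (i := 0) (by omega)).1 h

/-- the pieces of level `1` of the partial sum -/
noncomputable def g1 (k n : ℕ) (g : Z2 → E3 → ℂ) (G : Finset Z2) (τ : Z2) (ξ : E3) : ℂ := ∑ θ ∈ cut k n G {τ}, g θ ξ

theorem inv_g1 {k n : ℕ} {g : Z2 → E3 → ℂ} (hg : ∀ θ, Integrable (g θ)) (G : Finset Z2) (τ : Z2) (z : E3) :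
    𝓕⁻ (g1 k n g G τ) z = sF g (cut k n G {τ}) z := by
  unfold g1 sF
  exact inv_fsum _ _ (fun k _ => hg k) z

theorem cut_sum {k n : ℕ} {g : Z2 → E3 → ℂ} (G S : Finset Z2) (z : E3) :
    sF g (cut k n G S) z = ∑ τ ∈ S, sF g (cut k n G {τ}) z := by
  classical
  unfold sF cut
  rw [← Finset.sum_fiberwise_of_maps_to (s := G.filter fun θ => anc k n 1 θ ∈ S) (t := S) (g := fun θ => anc k n 1 θ)
    (fun θ hθ => (Finset.mem_filter.1 hθ).2)]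
  refine Finset.sum_congr rfl fun τ hτ => Finset.sum_congr ?_ fun _ _ => rfl
  ext θ
  simp only [Finset.mem_filter, Finset.mem_singleton]
  constructor
  · rintro ⟨⟨h1, _⟩, h3⟩; exact ⟨h1, h3⟩
  · rintro ⟨h1, h3⟩; exact ⟨⟨h1, by rw [h3]; exact hτ⟩, h3⟩

theorem par_g1 {C0 : ℝ} {k n : ℕ} (hk : 1 ≤ k) (hC : 1 ≤ C0) {g : Z2 → E3 → ℂ} (hg : Par C0 k n g) {G : Finset Z2}
    (hG : G ⊆ desc k n 0 0) : Par (C0 + 1) 1 n (g1 k n g G) := by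
  have hex : ∀ τ ξ, g1 k n g G τ ξ ≠ 0 → ∃ θ ∈ cut k n G {τ}, g θ ξ ≠ 0 := by
    intro τ ξ h
    by_contra hc
    push Not at hc
    exact h (Finset.sum_eq_zero hc)
  have hcut : ∀ τ θ, θ ∈ cut k n G {τ} → θ ∈ desc k n 1 τ ∧ θ ∈ desc k n 0 0 := by
    intro τ θ hθ
    unfold cut at hθ
    rw [Finset.mem_filter, Finset.mem_singleton] at hθ
    exact ⟨anc_mem.1 hθ.2, hG hθ.1⟩
  have hpw : (2:ℝ) ^ (1 * n) ≤ 2 ^ (k * n) := pow_le_pow_right₀ (by norm_num) (Nat.mul_le_mul_right n hk)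
  refine ⟨?_, ?_, ?_, ?_, ?_⟩
  · intro τ
    exact integrable_finsetSum _ fun θ _ => hg.int θ
  · intro τ ξ h i
    obtain ⟨θ, hθ, _⟩ := hex τ ξ h
    obtain ⟨h1, h2⟩ := hcut τ θ hθ
    have h3 := anc_kids hk h2
    rw [anc_mem.2 h1] at h3
    unfold kids at h3
    rw [Fintype.mem_piFinset] at h3
    have := h3 i
    rw [Finset.mem_Ico] at this
    simp only [Pi.zero_apply, mul_zero, zero_add, mul_one] at this
    rw [one_mul]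
    exact this
  · intro τ ξ _; exact Set.mem_univ _
  · intro τ ξ h i
    obtain ⟨θ, hθ, hne⟩ := hex τ ξ h
    obtain ⟨h1, h2⟩ := hcut τ θ hθ
    have h3 := hg.slope θ ξ hne i
    have h4 := desc_slp (K := k) (i := 1) hk h1 i
    unfold slp at h4
    have h5 : C0 / 2 ^ (k * n) ≤ C0 / 2 ^ (1 * n) := div_le_div_of_nonneg_left (by linarith) (by positivity) hpw
    have h6 : (C0 + 1) / 2 ^ (1 * n) = C0 / 2 ^ (1 * n) + 1 / 2 ^ (1 * n) := by ring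
    rw [abs_le] at h3 ⊢
    constructor <;> linarith [h3.1, h3.2, h4.1, h4.2]
  · intro τ ξ h
    obtain ⟨θ, hθ, hne⟩ := hex τ ξ h
    refine (hg.near θ ξ hne).trans ?_
    have h5 : C0 / 2 ^ (2 * k * n) ≤ C0 / 2 ^ (2 * 1 * n) := div_le_div_of_nonneg_left (by linarith) (by positivity)
      (pow_le_pow_right₀ (by norm_num) (Nat.mul_le_mul_right n (Nat.mul_le_mul_left 2 hk)))
    refine h5.trans ?_
    gcongr
    linarith

/-- decoupling for partial sums, in terms of the means `b6` -/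
theorem dec_b6 (hDEC : StDEC) (ε : ℝ) (M : ℕ) (C0 : ℝ) (hε : 0 < ε) (hM : 4 ≤ M) (hC0 : 1 ≤ C0) : ∃ C : ℝ, 1 ≤ C ∧
    ∀ (k n : ℕ) (g : Z2 → E3 → ℂ) (G S : Finset Z2) (B : Fin 3 → ℤ), 1 ≤ k → Par C0 k n g → G ⊆ desc k n 0 0 → Strip 1 n S →
      (b6 M n B (sF g (cut k n G S))) ^ (1 / 3 : ℝ) ≤
        ENNReal.ofReal (C * 2 ^ (ε * n)) * ∑ τ ∈ S, (b6 M n B (sF g (cut k n G {τ}))) ^ (1 / 3 : ℝ) := by
  obtain ⟨C, hC, H⟩ := hDEC ε M (C0 + 1) hε hM (by linarith)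
  refine ⟨max C 1, le_max_right _ _, ?_⟩
  intro k n g G S B hk hg hG hS
  have hS' : Strip (C0 + 1) n S := by
    obtain ⟨θ, r, h⟩ := hS
    refine ⟨θ, r, fun τ hτ => (h τ hτ).trans ?_⟩
    gcongr
    linarith
  have hW : Wok (C0 + 1) n (2 ^ (2 * n)) (2 ^ (2 * n)) (2 ^ (2 * n)) 0 := by
    refine ⟨le_rfl, le_rfl, le_rfl, ?_⟩
    intro v hv i
    rw [min_self]
    gcongr
    simp only [Pi.zero_apply, zero_sub, abs_neg]
    rw [abs_of_nonneg (hv i).1]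
    linarith [(hv i).2]
  have h1 := H n (g1 k n g G) S 0 _ _ _ 0 (cB n B) (par_g1 hk hC0 hg hG) hS' hW
  simp_rw [inv_g1 hg.int] at h1
  simp_rw [← cut_sum] at h1
  unfold b6 wB
  have hmul : ∀ x : ℝ≥0∞, (ENNReal.ofReal ((2 ^ (6 * n))⁻¹) * x) ^ (1 / 3 : ℝ) =
      ENNReal.ofReal ((2 ^ (6 * n))⁻¹) ^ (1 / 3 : ℝ) * x ^ (1 / 3 : ℝ) := fun x => ENNReal.mul_rpow_of_nonneg _ _ (by norm_num)
  simp_rw [hmul]
  rw [← Finset.mul_sum]
  calc _ ≤ ENNReal.ofReal ((2 ^ (6 * n))⁻¹) ^ (1 / 3 : ℝ) * (ENNReal.ofReal (C * 2 ^ (ε * n)) *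
        ∑ τ ∈ S, (∫⁻ z, ‖sF g (cut k n G {τ}) z‖ₑ ^ 6 * wg M 0 (2 ^ (2 * n)) (2 ^ (2 * n)) (2 ^ (2 * n)) 0 (z - cB n B)) ^ (1 / 3 : ℝ)) := by
        gcongr
    _ ≤ ENNReal.ofReal ((2 ^ (6 * n))⁻¹) ^ (1 / 3 : ℝ) * (ENNReal.ofReal (max C 1 * 2 ^ (ε * n)) *
        ∑ τ ∈ S, (∫⁻ z, ‖sF g (cut k n G {τ}) z‖ₑ ^ 6 * wg M 0 (2 ^ (2 * n)) (2 ^ (2 * n)) (2 ^ (2 * n)) 0 (z - cB n B)) ^ (1 / 3 : ℝ)) := by
        gcongr
        exact le_max_left _ _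
    _ = _ := by ring

end Vale.Agent.P076.H879
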