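import Vale.Agent.P076.H879.Step
import Vale.Agent.P076.H285.StDEC

/-! # P076 / H879 : the narrow step, without hypothesis -/

set_option autoImplicit false

namespace Vale.Agent.P076.H879

theorem stSTEP : StSTEP := step Vale.Agent.P076.H285.stDEC

end Vale.Agent.P076.H879
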