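import Mathlib

/-! # P076 / H879 : superposition of polynomial weights in a parabolic box (real-variable form) -/

set_option autoImplicit false

namespace Vale.Agent.P076.H879

/-- uniform summability of `(1+|x-k|)^(-4/3)` over the integers -/
lemma exists_sum_int : ∃ C : ℝ, 0 ≤ C ∧ ∀ (x : ℝ) (U : Finset ℤ), ∑ k ∈ U, ((1 + |x - k|) ^ (4 / 3 : ℝ))⁻¹ ≤ C := by
  have hs : Summable fun n : ℤ => |(n : ℝ)| ^ (-(4 / 3 : ℝ)) := Real.summable_abs_int_rpow (by norm_num)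
  have hs' : Summable fun n : ℤ => ((max 1 |(n : ℝ)|) ^ (4 / 3 : ℝ))⁻¹ := by
    refine Summable.of_norm_bounded_eventually (g := fun n : ℤ => |(n : ℝ)| ^ (-(4 / 3 : ℝ))) hs ?_
    have : ({0} : Set ℤ)ᶜ ∈ Filter.cofinite := (Set.finite_singleton (0 : ℤ)).compl_mem_cofinite
    filter_upwards [this] with n hn
    have hn' : n ≠ 0 := hn
    have h1 : (1 : ℝ) ≤ |(n : ℝ)| := by
      have : (1 : ℤ) ≤ |n| := Int.one_le_abs hn'
      exact_mod_cast this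
    rw [max_eq_right h1, Real.norm_of_nonneg (by positivity), Real.rpow_neg (abs_nonneg _)]
  refine ⟨∑' n : ℤ, ((max 1 |(n : ℝ)|) ^ (4 / 3 : ℝ))⁻¹, tsum_nonneg fun n => by positivity, ?_⟩
  intro x U
  calc ∑ k ∈ U, ((1 + |x - k|) ^ (4 / 3 : ℝ))⁻¹ ≤ ∑ k ∈ U, ((max 1 |((k - ⌊x⌋ : ℤ) : ℝ)|) ^ (4 / 3 : ℝ))⁻¹ := by
        apply Finset.sum_le_sum
        intro k _
        gcongr
        apply max_le
        · have := abs_nonneg (x - k); linarith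
        · have h1 : |x - ⌊x⌋| ≤ 1 := by
            rw [abs_le]; constructor
            · have := Int.floor_le x; linarith
            · have := Int.lt_floor_add_one x; linarith
          push_cast
          calc |(k : ℝ) - ⌊x⌋| = |(x - ⌊x⌋) - (x - k)| := by congr 1; ring
            _ ≤ |x - ⌊x⌋| + |x - k| := abs_sub _ _
            _ ≤ 1 + |x - k| := by linarith
    _ = ∑ k ∈ U.map (Equiv.subRight ⌊x⌋).toEmbedding, ((max 1 |(k : ℝ)|) ^ (4 / 3 : ℝ))⁻¹ := by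
        rw [Finset.sum_map]; rfl
    _ ≤ _ := hs'.sum_le_tsum _ (fun k _ => by positivity)

/-- uniform summability of `(1+|x-B|)^(-M)` over the lattice `ℤ³`, `M ≥ 4` -/
theorem sum_Z3 : ∃ C : ℝ, 0 ≤ C ∧ ∀ (M : ℕ), 4 ≤ M → ∀ (x : Fin 3 → ℝ) (U : Finset (Fin 3 → ℤ)),
    ∑ B ∈ U, ((1 + (|x 0 - B 0| + |x 1 - B 1| + |x 2 - B 2|)) ^ M)⁻¹ ≤ C := by
  obtain ⟨C, hC, h⟩ := exists_sum_int
  refine ⟨C * C * C, by positivity, ?_⟩
  intro M hM x U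
  classical
  have key : ∀ B : Fin 3 → ℤ, ((1 + (|x 0 - B 0| + |x 1 - B 1| + |x 2 - B 2|)) ^ M)⁻¹ ≤
      ((1 + |x 0 - B 0|) ^ (4 / 3 : ℝ))⁻¹ * ((1 + |x 1 - B 1|) ^ (4 / 3 : ℝ))⁻¹ * ((1 + |x 2 - B 2|) ^ (4 / 3 : ℝ))⁻¹ := by
    intro B
    rw [← mul_inv, ← mul_inv]
    have na := abs_nonneg (x 0 - B 0)
    have nb := abs_nonneg (x 1 - B 1)
    have nc := abs_nonneg (x 2 - B 2)
    set T : ℝ := 1 + (|x 0 - B 0| + |x 1 - B 1| + |x 2 - B 2|) with hT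
    have hT1 : 1 ≤ T := by linarith
    apply inv_anti₀ (by positivity)
    have r1 : (1 + |x 0 - B 0|) ^ (4 / 3 : ℝ) ≤ T ^ (4 / 3 : ℝ) := Real.rpow_le_rpow (by linarith) (by linarith) (by norm_num)
    have r2 : (1 + |x 1 - B 1|) ^ (4 / 3 : ℝ) ≤ T ^ (4 / 3 : ℝ) := Real.rpow_le_rpow (by linarith) (by linarith) (by norm_num)
    have r3 : (1 + |x 2 - B 2|) ^ (4 / 3 : ℝ) ≤ T ^ (4 / 3 : ℝ) := Real.rpow_le_rpow (by linarith) (by linarith) (by norm_num)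
    calc (1 + |x 0 - B 0|) ^ (4 / 3 : ℝ) * (1 + |x 1 - B 1|) ^ (4 / 3 : ℝ) * (1 + |x 2 - B 2|) ^ (4 / 3 : ℝ)
        ≤ T ^ (4 / 3 : ℝ) * T ^ (4 / 3 : ℝ) * T ^ (4 / 3 : ℝ) := by gcongr
      _ = T ^ (4 : ℝ) := by
          rw [← Real.rpow_add (by linarith), ← Real.rpow_add (by linarith)]; norm_num
      _ ≤ T ^ (M : ℝ) := by
          apply Real.rpow_le_rpow_of_exponent_le hT1
          exact_mod_cast hM
      _ = T ^ M := Real.rpow_natCast T M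
  have inj : Set.InjOn (fun B : Fin 3 → ℤ => (B 0, B 1, B 2)) (U : Set (Fin 3 → ℤ)) := by
    intro a _ b _ hab
    simp only [Prod.mk.injEq] at hab
    funext i
    fin_cases i
    · exact hab.1
    · exact hab.2.1
    · exact hab.2.2
  calc _ ≤ ∑ B ∈ U, ((1 + |x 0 - B 0|) ^ (4 / 3 : ℝ))⁻¹ * ((1 + |x 1 - B 1|) ^ (4 / 3 : ℝ))⁻¹ *
        ((1 + |x 2 - B 2|) ^ (4 / 3 : ℝ))⁻¹ := Finset.sum_le_sum fun B _ => key B
    _ = ∑ q ∈ U.image (fun B => (B 0, B 1, B 2)), ((1 + |x 0 - q.1|) ^ (4 / 3 : ℝ))⁻¹ *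
        ((1 + |x 1 - q.2.1|) ^ (4 / 3 : ℝ))⁻¹ * ((1 + |x 2 - q.2.2|) ^ (4 / 3 : ℝ))⁻¹ := by
        rw [Finset.sum_image inj]
    _ ≤ ∑ q ∈ (U.image (fun B => B 0)) ×ˢ ((U.image (fun B => B 1)) ×ˢ (U.image (fun B => B 2))),
        ((1 + |x 0 - q.1|) ^ (4 / 3 : ℝ))⁻¹ *
        ((1 + |x 1 - q.2.1|) ^ (4 / 3 : ℝ))⁻¹ * ((1 + |x 2 - q.2.2|) ^ (4 / 3 : ℝ))⁻¹ := by
        apply Finset.sum_le_sum_of_subset_of_nonneg
        · intro q hq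
          simp only [Finset.mem_image] at hq
          obtain ⟨B, hB, rfl⟩ := hq
          simp only [Finset.mem_product, Finset.mem_image]
          exact ⟨⟨B, hB, rfl⟩, ⟨B, hB, rfl⟩, ⟨B, hB, rfl⟩⟩
        · intro q _ _; positivity
    _ = (∑ a ∈ U.image (fun B => B 0), ((1 + |x 0 - a|) ^ (4 / 3 : ℝ))⁻¹) *
        ((∑ a ∈ U.image (fun B => B 1), ((1 + |x 1 - a|) ^ (4 / 3 : ℝ))⁻¹) *
        (∑ a ∈ U.image (fun B => B 2), ((1 + |x 2 - a|) ^ (4 / 3 : ℝ))⁻¹)) := by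
        rw [Finset.sum_product, Finset.sum_mul]
        apply Finset.sum_congr rfl; intro a _
        rw [Finset.sum_product, Finset.sum_mul_sum, Finset.mul_sum]
        apply Finset.sum_congr rfl; intro b _
        rw [Finset.mul_sum]
        apply Finset.sum_congr rfl; intro c _
        ring
    _ ≤ C * (C * C) := by
        have h0 := h (x 0) (U.image (fun B => B 0))
        have h1 := h (x 1) (U.image (fun B => B 1))
        have h2 := h (x 2) (U.image (fun B => B 2))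
        have p0 : 0 ≤ ∑ a ∈ U.image (fun B => B 0), ((1 + |x 0 - a|) ^ (4 / 3 : ℝ))⁻¹ := Finset.sum_nonneg fun i _ => by positivity
        have p1 : 0 ≤ ∑ a ∈ U.image (fun B => B 1), ((1 + |x 1 - a|) ^ (4 / 3 : ℝ))⁻¹ := Finset.sum_nonneg fun i _ => by positivity
        have p2 : 0 ≤ ∑ a ∈ U.image (fun B => B 2), ((1 + |x 2 - a|) ^ (4 / 3 : ℝ))⁻¹ := Finset.sum_nonneg fun i _ => by positivity
        gcongr
    _ = C * C * C := by ring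

/-- the cube of the new coordinates which contains the point `B` -/
def bx (n : ℕ) (τ : Fin 2 → ℤ) (B : Fin 3 → ℤ) : Fin 3 → ℤ :=
  ![(2 ^ n * B 0 - τ 0 * B 2) / 2 ^ (2 * n), (2 ^ n * B 1 - τ 1 * B 2) / 2 ^ (2 * n), B 2 / 2 ^ (2 * n)]

theorem div_mem (n : ℕ) (a : ℤ) : 0 ≤ (a:ℝ) / 2 ^ n - (a / 2 ^ n : ℤ) ∧ (a:ℝ) / 2 ^ n - (a / 2 ^ n : ℤ) < 1 := by
  have h1 : (a / 2 ^ n : ℤ) * 2 ^ n ≤ a := Int.ediv_mul_le a (by positivity)
  have h2 : a < (a / 2 ^ n + 1) * 2 ^ n := Int.lt_ediv_add_one_mul_self a (by positivity)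
  have h1' : ((a / 2 ^ n : ℤ) : ℝ) * 2 ^ n ≤ a := by exact_mod_cast h1
  have h2' : (a : ℝ) < (((a / 2 ^ n : ℤ) : ℝ) + 1) * 2 ^ n := by exact_mod_cast h2
  have hp : (0:ℝ) < 2 ^ n := by positivity
  constructor
  · rw [sub_nonneg, le_div_iff₀ hp]; exact h1'
  · rw [sub_lt_iff_lt_add, div_lt_iff₀ hp]; linarith

/-- position of `B` in its box -/
theorem bx_mem (n : ℕ) (τ : Fin 2 → ℤ) (B : Fin 3 → ℤ) :
    (∀ i : Fin 2, 0 ≤ ((B i.castSucc : ℝ) - (τ i : ℝ) / 2 ^ n * B 2) / 2 ^ n - bx n τ B i.castSucc ∧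
      ((B i.castSucc : ℝ) - (τ i : ℝ) / 2 ^ n * B 2) / 2 ^ n - bx n τ B i.castSucc < 1) ∧
    0 ≤ (B 2 : ℝ) / 2 ^ (2 * n) - bx n τ B 2 ∧ (B 2 : ℝ) / 2 ^ (2 * n) - bx n τ B 2 < 1 := by
  have e : ∀ i : Fin 2, ((B i.castSucc : ℝ) - (τ i : ℝ) / 2 ^ n * B 2) / 2 ^ n =
      ((2 ^ n * B i.castSucc - τ i * B 2 : ℤ) : ℝ) / 2 ^ (2 * n) := by
    intro i
    push_cast
    rw [two_mul, pow_add]
    field_simp
  refine ⟨?_, ?_⟩
  · intro i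
    rw [e]
    fin_cases i
    · exact div_mem (2 * n) (2 ^ n * B 0 - τ 0 * B 2)
    · exact div_mem (2 * n) (2 ^ n * B 1 - τ 1 * B 2)
  · exact div_mem (2 * n) (B 2)

/-- number of lattice points in a box -/
theorem card_bx (n : ℕ) (τ : Fin 2 → ℤ) (B' : Fin 3 → ℤ) (U : Finset (Fin 3 → ℤ)) (hU : ∀ B ∈ U, bx n τ B = B') :
    (U.card : ℝ) ≤ 4 * 2 ^ (4 * n) := by
  classical
  -- injection to `[0, D²) × [0, D] × [0, D]`
  let f : (Fin 3 → ℤ) → ℤ × ℤ × ℤ := fun B =>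
    (B 2 - 2 ^ (2 * n) * B' 2, B 0 - (τ 0 * B 2) / 2 ^ n - 2 ^ n * B' 0, B 1 - (τ 1 * B 2) / 2 ^ n - 2 ^ n * B' 1)
  have hinj : Set.InjOn f (U : Set (Fin 3 → ℤ)) := by
    intro a _ b _ hab
    simp only [f, Prod.mk.injEq] at hab
    obtain ⟨h2, h0, h1⟩ := hab
    have e2 : a 2 = b 2 := by linarith
    rw [e2] at h0 h1
    funext i
    fin_cases i
    · show a 0 = b 0; linarith
    · show a 1 = b 1; linarith
    · exact e2
  have hmap : ∀ B ∈ U, f B ∈ (Finset.Ico (0:ℤ) (2 ^ (2 * n))) ×ˢ ((Finset.Icc (0:ℤ) (2 ^ n)) ×ˢ (Finset.Icc (0:ℤ) (2 ^ n))) := by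
    intro B hB
    have hb := hU B hB
    have hp : (0:ℤ) < 2 ^ n := by positivity
    have hp2 : (0:ℤ) < 2 ^ (2 * n) := by positivity
    have epow : (2:ℤ) ^ (2 * n) = 2 ^ n * 2 ^ n := by rw [two_mul, pow_add]
    have c2 : B 2 / 2 ^ (2 * n) = B' 2 := by rw [← hb]; rfl
    have c0 : (2 ^ n * B 0 - τ 0 * B 2) / 2 ^ (2 * n) = B' 0 := by rw [← hb]; rfl
    have c1 : (2 ^ n * B 1 - τ 1 * B 2) / 2 ^ (2 * n) = B' 1 := by rw [← hb]; rfl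
    have aux : ∀ x t b : ℤ, (2 ^ n * x - t) / 2 ^ (2 * n) = b → 0 ≤ x - t / 2 ^ n - 2 ^ n * b ∧ x - t / 2 ^ n - 2 ^ n * b ≤ 2 ^ n := by
      intro x t b h
      have g1 : b * 2 ^ (2 * n) ≤ 2 ^ n * x - t := by rw [← h]; exact Int.ediv_mul_le _ hp2.ne'
      have g2 : 2 ^ n * x - t < (b + 1) * 2 ^ (2 * n) := by rw [← h]; exact Int.lt_ediv_add_one_mul_self _ hp2
      have g3 : t / 2 ^ n * 2 ^ n ≤ t := Int.ediv_mul_le _ hp.ne'
      have g4 : t < (t / 2 ^ n + 1) * 2 ^ n := Int.lt_ediv_add_one_mul_self _ hp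
      rw [epow] at g1 g2
      constructor
      · have : (2 ^ n) * (2 ^ n * b) ≤ 2 ^ n * (x - t / 2 ^ n) := by nlinarith
        have := le_of_mul_le_mul_left this hp
        linarith
      · have : 2 ^ n * (x - t / 2 ^ n) < 2 ^ n * (2 ^ n * b + 2 ^ n + 1) := by nlinarith
        have := lt_of_mul_lt_mul_left this hp.le
        linarith
    have h0 := aux _ _ _ c0
    have h1 := aux _ _ _ c1
    have g1 : B' 2 * 2 ^ (2 * n) ≤ B 2 := by rw [← c2]; exact Int.ediv_mul_le _ hp2.ne'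
    have g2 : B 2 < (B' 2 + 1) * 2 ^ (2 * n) := by rw [← c2]; exact Int.lt_ediv_add_one_mul_self _ hp2
    simp only [f, Finset.mem_product, Finset.mem_Ico, Finset.mem_Icc]
    refine ⟨⟨by linarith, by linarith⟩, ⟨h0.1, h0.2⟩, ⟨h1.1, h1.2⟩⟩
  have hc := Finset.card_le_card_of_injOn f hmap hinj
  rw [Finset.card_product, Finset.card_product, Int.card_Ico, Int.card_Icc] at hc
  have e1 : ((2:ℤ) ^ (2 * n) - 0).toNat = 2 ^ (2 * n) := by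
    rw [sub_zero]; exact_mod_cast Int.toNat_natCast (2 ^ (2 * n))
  have e2 : ((2:ℤ) ^ n + 1 - 0).toNat = 2 ^ n + 1 := by
    rw [sub_zero]; exact_mod_cast Int.toNat_natCast (2 ^ n + 1)
  rw [e1, e2] at hc
  have hc' : (U.card : ℝ) ≤ 2 ^ (2 * n) * ((2 ^ n + 1) * (2 ^ n + 1)) := by exact_mod_cast hc
  refine hc'.trans ?_
  have h1 : (1:ℝ) ≤ 2 ^ n := one_le_pow₀ (by norm_num)
  have e3 : (2:ℝ) ^ (4 * n) = 2 ^ (2 * n) * (2 ^ n * 2 ^ n) := by rw [← pow_add, ← pow_add]; congr 1; ring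
  rw [e3]
  have hq : (0:ℝ) < 2 ^ (2 * n) := by positivity
  nlinarith [mul_nonneg hq.le (by nlinarith : (0:ℝ) ≤ 4 * (2 ^ n * 2 ^ n) - (2 ^ n + 1) * (2 ^ n + 1))]

/-- superposition of weights in a box -/
theorem superpos (M : ℕ) (hM : 4 ≤ M) : ∃ C : ℝ, 0 ≤ C ∧ ∀ (n : ℕ) (τ : Fin 2 → ℤ) (B' : Fin 3 → ℤ) (U : Finset (Fin 3 → ℤ)),
    (∀ i, 0 ≤ τ i ∧ τ i < 2 ^ n) → (∀ B ∈ U, bx n τ B = B') → ∀ x : Fin 3 → ℝ,
    ∑ B ∈ U, ((1 + (|x 0 - B 0| + |x 1 - B 1| + |x 2 - B 2|)) ^ M)⁻¹ ≤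
      C * ((1 + (|(x 0 - (τ 0 : ℝ) / 2 ^ n * x 2) / 2 ^ n - B' 0| + |(x 1 - (τ 1 : ℝ) / 2 ^ n * x 2) / 2 ^ n - B' 1| +
        |x 2 / 2 ^ (2 * n) - B' 2|)) ^ M)⁻¹ := by
  obtain ⟨C, hC, hS⟩ := sum_Z3
  refine ⟨C * 7 ^ M + 4 * 7 ^ M, by positivity, ?_⟩
  intro n τ B' U hτ hU x
  set t : ℝ := |(x 0 - (τ 0 : ℝ) / 2 ^ n * x 2) / 2 ^ n - B' 0| + |(x 1 - (τ 1 : ℝ) / 2 ^ n * x 2) / 2 ^ n - B' 1| +
        |x 2 / 2 ^ (2 * n) - B' 2| with ht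
  have ht0 : 0 ≤ t := by positivity
  have hD : (1:ℝ) ≤ 2 ^ n := one_le_pow₀ (by norm_num)
  have hDp : (0:ℝ) < 2 ^ n := by positivity
  -- the main inequality
  have key : ∀ B ∈ U, t ≤ 3 + 3 * (|x 0 - B 0| + |x 1 - B 1| + |x 2 - B 2|) / 2 ^ n := by
    intro B hB
    obtain ⟨m01, m2⟩ := bx_mem n τ B
    rw [hU B hB] at m01 m2
    have m0 := m01 0
    have m1 := m01 1
    simp only [Fin.castSucc_zero, Fin.castSucc_one] at m0 m1
    have ha : ∀ i, |(τ i : ℝ) / 2 ^ n| ≤ 1 := by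
      intro i
      rw [abs_le]
      have h1 : (0:ℝ) ≤ τ i := by exact_mod_cast (hτ i).1
      have h2 : (τ i : ℝ) ≤ 2 ^ n := by exact_mod_cast (hτ i).2.le
      constructor
      · have : (0:ℝ) ≤ τ i / 2 ^ n := by positivity
        linarith
      · rw [div_le_one hDp]; exact h2
    have step : ∀ (i : Fin 2) (xi Bi b : ℝ), 0 ≤ (Bi - (τ i : ℝ) / 2 ^ n * B 2) / 2 ^ n - b → (Bi - (τ i : ℝ) / 2 ^ n * B 2) / 2 ^ n - b < 1 →
        |(xi - (τ i : ℝ) / 2 ^ n * x 2) / 2 ^ n - b| ≤ 1 + (|xi - Bi| + |x 2 - B 2|) / 2 ^ n := by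
      intro i xi Bi b h1 h2
      have e : (xi - (τ i : ℝ) / 2 ^ n * x 2) / 2 ^ n - b =
          ((Bi - (τ i : ℝ) / 2 ^ n * B 2) / 2 ^ n - b) + ((xi - Bi) - (τ i : ℝ) / 2 ^ n * (x 2 - B 2)) / 2 ^ n := by ring
      rw [e]
      refine (abs_add_le _ _).trans (add_le_add ?_ ?_)
      · rw [abs_of_nonneg h1]; exact h2.le
      · rw [abs_div, abs_of_pos hDp]
        refine div_le_div_of_nonneg_right ?_ hDp.le
        refine (abs_sub _ _).trans (add_le_add le_rfl ?_)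
        rw [abs_mul]
        exact mul_le_of_le_one_left (abs_nonneg _) (ha i)
    have s0 := step 0 (x 0) (B 0) (B' 0) m0.1 m0.2
    have s1 := step 1 (x 1) (B 1) (B' 1) m1.1 m1.2
    have s2 : |x 2 / 2 ^ (2 * n) - B' 2| ≤ 1 + |x 2 - B 2| / 2 ^ n := by
      have e : x 2 / 2 ^ (2 * n) - B' 2 = ((B 2 : ℝ) / 2 ^ (2 * n) - B' 2) + (x 2 - B 2) / 2 ^ (2 * n) := by ring
      rw [e]
      refine (abs_add_le _ _).trans (add_le_add ?_ ?_)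
      · rw [abs_of_nonneg m2.1]; exact m2.2.le
      · rw [abs_div, abs_of_pos (by positivity : (0:ℝ) < 2 ^ (2 * n))]
        gcongr
        · norm_num
        · omega
    have s3 : 3 + 3 * (|x 0 - B 0| + |x 1 - B 1| + |x 2 - B 2|) / 2 ^ n =
      (1 + (|x 0 - B 0| + |x 2 - B 2|) / 2 ^ n) + (1 + (|x 1 - B 1| + |x 2 - B 2|) / 2 ^ n) + (1 + |x 2 - B 2| / 2 ^ n) +
        2 * (|x 0 - B 0| + |x 1 - B 1|) / 2 ^ n := by ring
    have s4 : 0 ≤ 2 * (|x 0 - B 0| + |x 1 - B 1|) / 2 ^ n := by positivity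
    linarith
  rcases le_or_gt t 6 with h6 | h6
  · calc _ ≤ C := hS M hM x U
      _ = C * 7 ^ M * ((7:ℝ) ^ M)⁻¹ := by field_simp
      _ ≤ (C * 7 ^ M + 4 * 7 ^ M) * ((1 + t) ^ M)⁻¹ := by
          gcongr
          · linarith [show (0:ℝ) ≤ 4 * 7 ^ M by positivity]
          · linarith
  · have hb : ∀ B ∈ U, ((1 + (|x 0 - B 0| + |x 1 - B 1| + |x 2 - B 2|)) ^ M)⁻¹ ≤ 7 ^ M * (2 ^ (4 * n) : ℝ)⁻¹ * ((1 + t) ^ M)⁻¹ := by
      intro B hB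
      have hk := key B hB
      set X : ℝ := |x 0 - B 0| + |x 1 - B 1| + |x 2 - B 2| with hX
      have h1 : (1 + t) * 2 ^ n ≤ 7 * (1 + X) := by
        have h2 : 3 * X / 2 ^ n ≥ t - 3 := by linarith
        have h3 : 3 * X ≥ (t - 3) * 2 ^ n := by
          have := mul_le_mul_of_nonneg_right h2 hDp.le
          rwa [div_mul_cancel₀ _ hDp.ne'] at this
        have h4 : (1 + t) ≤ 7 / 3 * (t - 3) := by linarith
        have h5 : (1 + t) * 2 ^ n ≤ 7 / 3 * (t - 3) * 2 ^ n := by gcongr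
        nlinarith
      have h2 : (1 + t) ^ M * 2 ^ (4 * n) ≤ 7 ^ M * (1 + X) ^ M := by
        calc (1 + t) ^ M * 2 ^ (4 * n) ≤ (1 + t) ^ M * (2 ^ n) ^ M := by
              gcongr
              rw [← pow_mul]
              apply pow_le_pow_right₀ (by norm_num)
              nlinarith
          _ = ((1 + t) * 2 ^ n) ^ M := by rw [mul_pow]
          _ ≤ (7 * (1 + X)) ^ M := by gcongr
          _ = 7 ^ M * (1 + X) ^ M := by rw [mul_pow]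
      have hX0 : 0 ≤ X := by positivity
      rw [inv_eq_one_div, div_le_iff₀ (by positivity)]
      have e : 7 ^ M * (2 ^ (4 * n) : ℝ)⁻¹ * ((1 + t) ^ M)⁻¹ * (1 + X) ^ M = (7 ^ M * (1 + X) ^ M) / ((1 + t) ^ M * 2 ^ (4 * n)) := by
        field_simp
      rw [e, le_div_iff₀ (by positivity)]
      linarith
    calc _ ≤ ∑ B ∈ U, 7 ^ M * (2 ^ (4 * n) : ℝ)⁻¹ * ((1 + t) ^ M)⁻¹ := Finset.sum_le_sum hb
      _ = U.card * (7 ^ M * (2 ^ (4 * n) : ℝ)⁻¹ * ((1 + t) ^ M)⁻¹) := by rw [Finset.sum_const, nsmul_eq_mul]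
      _ ≤ (4 * 2 ^ (4 * n)) * (7 ^ M * (2 ^ (4 * n) : ℝ)⁻¹ * ((1 + t) ^ M)⁻¹) := by
          gcongr
          exact card_bx n τ B' U hU
      _ = 4 * 7 ^ M * ((1 + t) ^ M)⁻¹ := by field_simp
      _ ≤ _ := by
          gcongr
          linarith [show (0:ℝ) ≤ C * 7 ^ M by positivity]

end Vale.Agent.P076.H879
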