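import Vale.Agent.P076.H879.Defs
import Vale.Agent.P076.H879.Lat

/-! # P076 / H879 : geometry of the boxes -/

set_option autoImplicit false

open MeasureTheory Complex Set Vale.Agent.P122.C2 Vale.Agent.P122.AN Vale.Agent.P076.NS
open scoped ENNReal NNReal FourierTransform

namespace Vale.Agent.P076.H879

theorem abs_le_dist (x y : E3) (i : Fin 3) : |x i - y i| ≤ dist x y := by
  rw [EuclideanSpace.dist_eq]
  apply Real.le_sqrt_of_sq_le
  have := Finset.single_le_sum (f := fun i => dist (x i) (y i) ^ 2) (fun i _ => by positivity) (Finset.mem_univ i)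
  simpa [Real.dist_eq] using this

theorem dist_le_of_abs (x y : E3) (u v w r : ℝ) (hr : 0 ≤ r) (h0 : |x 0 - y 0| ≤ u) (h1 : |x 1 - y 1| ≤ v) (h2 : |x 2 - y 2| ≤ w)
    (h : u ^ 2 + v ^ 2 + w ^ 2 ≤ r ^ 2) : dist x y ≤ r := by
  rw [EuclideanSpace.dist_eq]
  apply Real.sqrt_le_iff.2 ⟨hr, ?_⟩
  rw [Fin.sum_univ_three]
  simp only [Real.dist_eq]
  have e0 : |x 0 - y 0| ^ 2 ≤ u ^ 2 := pow_le_pow_left₀ (abs_nonneg _) h0 2
  have e1 : |x 1 - y 1| ^ 2 ≤ v ^ 2 := pow_le_pow_left₀ (abs_nonneg _) h1 2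
  have e2 : |x 2 - y 2| ^ 2 ≤ w ^ 2 := pow_le_pow_left₀ (abs_nonneg _) h2 2
  linarith

@[simp] theorem cB0 (n : ℕ) (B : Fin 3 → ℤ) : cB n B 0 = (2:ℝ) ^ (2 * n) * B 0 := rfl
@[simp] theorem cB1 (n : ℕ) (B : Fin 3 → ℤ) : cB n B 1 = (2:ℝ) ^ (2 * n) * B 1 := rfl
@[simp] theorem cB2 (n : ℕ) (B : Fin 3 → ℤ) : cB n B 2 = (2:ℝ) ^ (2 * n) * B 2 := rfl

theorem cBi (n : ℕ) (B : Fin 3 → ℤ) (i : Fin 3) : cB n B i = (2:ℝ) ^ (2 * n) * B i := by
  fin_cases i <;> rfl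

/-- slope of the cap `τ` of level `1` -/
noncomputable def sl (n : ℕ) (τ : Z2) (i : Fin 2) : ℝ := (τ i : ℝ) / 2 ^ n

theorem sl_nonneg {n : ℕ} {τ : Z2} (hτ : ∀ i, 0 ≤ τ i ∧ τ i < 2 ^ n) (i : Fin 2) : 0 ≤ sl n τ i := by
  unfold sl
  have : (0:ℝ) ≤ τ i := by exact_mod_cast (hτ i).1
  positivity

theorem sl_le {n : ℕ} {τ : Z2} (hτ : ∀ i, 0 ≤ τ i ∧ τ i < 2 ^ n) (i : Fin 2) : sl n τ i ≤ 1 := by
  unfold sl
  have : (τ i : ℝ) ≤ 2 ^ n := by exact_mod_cast (hτ i).2.le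
  rw [div_le_one (by positivity)]
  exact this

/-- position of the cube `B` in the box of `bx n τ B`, in the new coordinates -/
theorem bx_pos (n : ℕ) (τ : Z2) (B : Fin 3 → ℤ) :
    (∀ i : Fin 2, 0 ≤ (cB n B i.castSucc - sl n τ i * cB n B 2) / 2 ^ n - cB n (bx n τ B) i.castSucc ∧
      (cB n B i.castSucc - sl n τ i * cB n B 2) / 2 ^ n - cB n (bx n τ B) i.castSucc ≤ 2 ^ (2 * n)) ∧
    0 ≤ cB n B 2 / 2 ^ (2 * n) - cB n (bx n τ B) 2 ∧ cB n B 2 / 2 ^ (2 * n) - cB n (bx n τ B) 2 ≤ 2 ^ (2 * n) := by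
  obtain ⟨m, m2⟩ := bx_mem n τ B
  have hp : (0:ℝ) < 2 ^ (2 * n) := by positivity
  constructor
  · intro i
    have mi := m i
    have e : (cB n B i.castSucc - sl n τ i * cB n B 2) / 2 ^ n - cB n (bx n τ B) i.castSucc =
        2 ^ (2 * n) * (((B i.castSucc : ℝ) - (τ i : ℝ) / 2 ^ n * B 2) / 2 ^ n - bx n τ B i.castSucc) := by
      rw [cBi, cBi, cBi]; unfold sl; ring
    rw [e]
    exact ⟨mul_nonneg hp.le mi.1, mul_le_of_le_one_right hp.le mi.2.le⟩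
  · have e : cB n B 2 / 2 ^ (2 * n) - cB n (bx n τ B) 2 = 2 ^ (2 * n) * ((B 2 : ℝ) / 2 ^ (2 * n) - bx n τ B 2) := by
      rw [cB2, cB2]; ring
    rw [e]
    exact ⟨mul_nonneg hp.le m2.1, mul_le_of_le_one_right hp.le m2.2.le⟩

/-- localisation: new coordinates of a cube of a box which meets a ball -/
theorem loc (n : ℕ) (τ : Z2) (B : Fin 3 → ℤ) (p' : E3) (r' : ℝ) (hr : (2:ℝ) ^ (2 * n) ≤ r')
    (h : dist (cB n (bx n τ B)) p' ≤ r') :
    (∀ i : Fin 2, |(cB n B i.castSucc - sl n τ i * cB n B 2) / 2 ^ n - p' i.castSucc| ≤ 2 * r') ∧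
    |cB n B 2 / 2 ^ (2 * n) - p' 2| ≤ 2 * r' := by
  obtain ⟨m, m2⟩ := bx_pos n τ B
  constructor
  · intro i
    have mi := m i
    have h1 := (abs_le_dist (cB n (bx n τ B)) p' i.castSucc).trans h
    have e : (cB n B i.castSucc - sl n τ i * cB n B 2) / 2 ^ n - p' i.castSucc =
      ((cB n B i.castSucc - sl n τ i * cB n B 2) / 2 ^ n - cB n (bx n τ B) i.castSucc) + (cB n (bx n τ B) i.castSucc - p' i.castSucc) := by ring
    rw [e]
    refine (abs_add_le _ _).trans ?_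
    rw [abs_of_nonneg mi.1]
    linarith [mi.2]
  · have h1 := (abs_le_dist (cB n (bx n τ B)) p' 2).trans h
    have e : cB n B 2 / 2 ^ (2 * n) - p' 2 = (cB n B 2 / 2 ^ (2 * n) - cB n (bx n τ B) 2) + (cB n (bx n τ B) 2 - p' 2) := by ring
    rw [e]
    refine (abs_add_le _ _).trans ?_
    rw [abs_of_nonneg m2.1]
    linarith [m2.2]

/-- the cubes of the boxes which meet a ball of radius `r'` of the new coordinates are in a ball of radius `6 D² r'` -/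
theorem loc_ball (n : ℕ) (τ : Z2) (hτ : ∀ i, 0 ≤ τ i ∧ τ i < 2 ^ n) (B : Fin 3 → ℤ) (p' : E3) (r' : ℝ)
    (hr : (2:ℝ) ^ (2 * n) ≤ r') (h : dist (cB n (bx n τ B)) p' ≤ r') :
    dist (cB n B) !₂[2 ^ n * p' 0 + sl n τ 0 * (2 ^ (2 * n) * p' 2), 2 ^ n * p' 1 + sl n τ 1 * (2 ^ (2 * n) * p' 2),
      2 ^ (2 * n) * p' 2] ≤ 6 * 2 ^ (2 * n) * r' := by
  obtain ⟨m, m2⟩ := loc n τ B p' r' hr h
  have hD : (0:ℝ) < 2 ^ n := by positivity
  have hD1 : (1:ℝ) ≤ 2 ^ n := one_le_pow₀ (by norm_num)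
  have hD2 : (2:ℝ) ^ (2 * n) = 2 ^ n * 2 ^ n := by rw [two_mul, pow_add]
  have hr0 : 0 < r' := lt_of_lt_of_le (by positivity) hr
  have t2 : |cB n B 2 - 2 ^ (2 * n) * p' 2| ≤ 2 * 2 ^ (2 * n) * r' := by
    have e : cB n B 2 - 2 ^ (2 * n) * p' 2 = 2 ^ (2 * n) * (cB n B 2 / 2 ^ (2 * n) - p' 2) := by field_simp
    rw [e, abs_mul, abs_of_pos (by positivity : (0:ℝ) < 2 ^ (2 * n))]
    calc _ ≤ 2 ^ (2 * n) * (2 * r') := by gcongr
      _ = _ := by ring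
  have ti : ∀ i : Fin 2, |cB n B i.castSucc - (2 ^ n * p' i.castSucc + sl n τ i * (2 ^ (2 * n) * p' 2))| ≤ 4 * 2 ^ (2 * n) * r' := by
    intro i
    have e : cB n B i.castSucc - (2 ^ n * p' i.castSucc + sl n τ i * (2 ^ (2 * n) * p' 2)) =
      2 ^ n * ((cB n B i.castSucc - sl n τ i * cB n B 2) / 2 ^ n - p' i.castSucc) + sl n τ i * (cB n B 2 - 2 ^ (2 * n) * p' 2) := by
      field_simp; ring
    rw [e]
    refine (abs_add_le _ _).trans ?_
    rw [abs_mul, abs_mul, abs_of_pos hD, abs_of_nonneg (sl_nonneg hτ i)]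
    have h1 : 2 ^ n * |(cB n B i.castSucc - sl n τ i * cB n B 2) / 2 ^ n - p' i.castSucc| ≤ 2 ^ n * (2 * r') := by
      gcongr; exact m i
    have h2 : sl n τ i * |cB n B 2 - 2 ^ (2 * n) * p' 2| ≤ 1 * (2 * 2 ^ (2 * n) * r') := by
      gcongr; exact sl_le hτ i
    have h3 : 2 ^ n * (2 * r') ≤ 2 * 2 ^ (2 * n) * r' := by
      rw [hD2]; nlinarith [mul_pos hD hr0]
    linarith
  refine dist_le_of_abs _ _ (4 * 2 ^ (2 * n) * r') (4 * 2 ^ (2 * n) * r') (2 * 2 ^ (2 * n) * r') _ (by positivity) (ti 0) (ti 1) t2 ?_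
  have : 0 ≤ (2 ^ (2 * n) * r') ^ 2 := by positivity
  nlinarith

/-- the dimension of the set of rich boxes -/
theorem dim_box (k n q : ℕ) (hk : 2 ≤ k) (τ : Z2) (hτ : ∀ i, 0 ≤ τ i ∧ τ i < 2 ^ n) (Y Y' : Finset (Fin 3 → ℤ))
    (γ : ℝ) (hγ : 0 < γ) (hY : Dim2 k n Y γ) (W : (Fin 3 → ℤ) → Finset (Fin 3 → ℤ))
    (hW : ∀ B' ∈ Y', 2 ^ q ≤ (W B').card ∧ ∀ B ∈ W B', B ∈ Y ∧ bx n τ B = B') :
    Dim2 (k - 1) n Y' (4913 * 2 ^ (3 * n) / 2 ^ q * γ) := by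
  classical
  intro r' p' hr1 hr2
  have hD : (0:ℝ) < 2 ^ n := by positivity
  have hD1 : (1:ℝ) ≤ 2 ^ n := one_le_pow₀ (by norm_num)
  have hD2 : (2:ℝ) ^ (2 * n) = 2 ^ n * 2 ^ n := by rw [two_mul, pow_add]
  have hD3 : (2:ℝ) ^ (3 * n) = 2 ^ n * 2 ^ n * 2 ^ n := by rw [← pow_add, ← pow_add]; congr 1; ring
  have hr0 : 0 < r' := lt_of_lt_of_le (by positivity) hr1
  set h : ℝ := 2 ^ n * r' / 4 with hh
  have hh0 : 0 < h := by positivity
  set Z' := Y'.filter fun B' => dist (cB n B') p' ≤ r' with hZ'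
  -- discretisation
  have disc : ∀ (m : ℕ) (u : ℝ), |u| ≤ m * h → ∃ l < 2 * m + 1, |u - (l * h - m * h)| ≤ h := by
    intro m u hu
    rw [abs_le] at hu
    set y : ℝ := (u + m * h) / h with hy
    have hy0 : 0 ≤ y := div_nonneg (by linarith [hu.1]) hh0.le
    have hy1 : y ≤ 2 * m := by rw [hy, div_le_iff₀ hh0]; linarith [hu.2]
    refine ⟨⌊y⌋₊, ?_, ?_⟩
    · have h1 : ((⌊y⌋₊ : ℕ) : ℝ) ≤ 2 * m := (Nat.floor_le hy0).trans hy1
      have : ⌊y⌋₊ ≤ 2 * m := by exact_mod_cast h1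
      omega
    · have h1 := Nat.floor_le hy0
      have h2 := Nat.lt_floor_add_one y
      have ey : u = y * h - m * h := by rw [hy]; field_simp; ring
      have e : u - (⌊y⌋₊ * h - m * h) = (y - ⌊y⌋₊) * h := by rw [ey]; ring
      rw [e, abs_of_nonneg (mul_nonneg (by linarith) hh0.le)]
      exact mul_le_of_le_one_left hh0.le (by linarith)
  -- centres
  let t : ℕ → ℝ := fun l => 2 ^ (2 * n) * p' 2 + (l * h - (8 * 2 ^ n : ℕ) * h)
  let c : ℕ × ℕ × ℕ → E3 := fun l => !₂[2 ^ n * p' 0 + sl n τ 0 * t l.1 + (l.2.1 * h - (8:ℕ) * h),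
    2 ^ n * p' 1 + sl n τ 1 * t l.1 + (l.2.2 * h - (8:ℕ) * h), t l.1]
  set IX : Finset (ℕ × ℕ × ℕ) := Finset.range (2 * (8 * 2 ^ n) + 1) ×ˢ (Finset.range (2 * 8 + 1) ×ˢ Finset.range (2 * 8 + 1)) with hIX
  -- the union of the groups is covered
  have hcov : Z'.biUnion W ⊆ IX.biUnion fun l => Y.filter fun B => dist (cB n B) (c l) ≤ 2 ^ n * r' := by
    intro B hB
    rw [Finset.mem_biUnion] at hB
    obtain ⟨B', hB', hBW⟩ := hB
    rw [hZ', Finset.mem_filter] at hB'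
    obtain ⟨hBY, hbx⟩ := (hW B' hB'.1).2 B hBW
    obtain ⟨m, m2⟩ := loc n τ B p' r' hr1 (by rw [hbx]; exact hB'.2)
    have t2 : |cB n B 2 - 2 ^ (2 * n) * p' 2| ≤ (8 * 2 ^ n : ℕ) * h := by
      have e : cB n B 2 - 2 ^ (2 * n) * p' 2 = 2 ^ (2 * n) * (cB n B 2 / 2 ^ (2 * n) - p' 2) := by field_simp
      rw [e, abs_mul, abs_of_pos (by positivity : (0:ℝ) < 2 ^ (2 * n))]
      calc _ ≤ 2 ^ (2 * n) * (2 * r') := by gcongr
        _ = _ := by push_cast; rw [hh, hD2]; ring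
    have ui : ∀ i : Fin 2, |cB n B i.castSucc - sl n τ i * cB n B 2 - 2 ^ n * p' i.castSucc| ≤ (8:ℕ) * h := by
      intro i
      have e : cB n B i.castSucc - sl n τ i * cB n B 2 - 2 ^ n * p' i.castSucc =
        2 ^ n * ((cB n B i.castSucc - sl n τ i * cB n B 2) / 2 ^ n - p' i.castSucc) := by field_simp
      rw [e, abs_mul, abs_of_pos hD]
      calc _ ≤ 2 ^ n * (2 * r') := by gcongr; exact m i
        _ = _ := by push_cast; rw [hh]; ring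
    obtain ⟨l, hl, dl⟩ := disc (8 * 2 ^ n) _ t2
    obtain ⟨l0, hl0, dl0⟩ := disc 8 _ (ui 0)
    obtain ⟨l1, hl1, dl1⟩ := disc 8 _ (ui 1)
    have d2 : |cB n B 2 - t l| ≤ h := by
      have e : cB n B 2 - t l = cB n B 2 - 2 ^ (2 * n) * p' 2 - (l * h - (8 * 2 ^ n : ℕ) * h) := by simp only [t]; ring
      rw [e]; exact dl
    have di : ∀ (i : Fin 2) (li : ℕ), |cB n B i.castSucc - sl n τ i * cB n B 2 - 2 ^ n * p' i.castSucc - (li * h - (8:ℕ) * h)| ≤ h →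
        |cB n B i.castSucc - (2 ^ n * p' i.castSucc + sl n τ i * t l + (li * h - (8:ℕ) * h))| ≤ 2 * h := by
      intro i li hli
      have e : cB n B i.castSucc - (2 ^ n * p' i.castSucc + sl n τ i * t l + (li * h - (8:ℕ) * h)) =
        (cB n B i.castSucc - sl n τ i * cB n B 2 - 2 ^ n * p' i.castSucc - (li * h - (8:ℕ) * h)) + sl n τ i * (cB n B 2 - t l) := by ring
      rw [e]
      refine (abs_add_le _ _).trans ?_
      rw [abs_mul, abs_of_nonneg (sl_nonneg hτ i)]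
      have h2 : sl n τ i * |cB n B 2 - t l| ≤ 1 * h := by
        gcongr; exact sl_le hτ i
      linarith
    rw [Finset.mem_biUnion]
    refine ⟨(l, l0, l1), ?_, Finset.mem_filter.2 ⟨hBY, ?_⟩⟩
    · rw [hIX]
      simp only [Finset.mem_product, Finset.mem_range]
      exact ⟨hl, hl0, hl1⟩
    · refine dist_le_of_abs _ _ (2 * h) (2 * h) h _ (by positivity) (di 0 l0 dl0) (di 1 l1 dl1) d2 ?_
      have e : 2 ^ n * r' = 4 * h := by rw [hh]; ring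
      rw [e]; nlinarith [mul_pos hh0 hh0]
  have hR : 2 ^ n * r' ≤ 2 ^ (2 * k * n) := by
    obtain ⟨j, rfl⟩ : ∃ j, k = j + 1 := ⟨k - 1, by omega⟩
    simp only [Nat.add_sub_cancel] at hr2
    calc 2 ^ n * r' ≤ 2 ^ n * 2 ^ n * 2 ^ (2 * j * n) := by
          gcongr; nlinarith
      _ = 2 ^ (2 * (j + 1) * n) := by rw [← pow_add, ← pow_add]; congr 1; ring
  have hr5 : (2:ℝ) ^ (2 * n) ≤ 2 ^ n * r' := by
    have : r' ≤ 2 ^ n * r' := by nlinarith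
    linarith
  have hcount : ((Z'.biUnion W).card : ℝ) ≤ IX.card * (γ * (2 ^ n * r') ^ 2) := by
    calc ((Z'.biUnion W).card : ℝ) ≤ ((IX.biUnion fun l => Y.filter fun B => dist (cB n B) (c l) ≤ 2 ^ n * r').card : ℝ) := by
          exact_mod_cast Finset.card_le_card hcov
      _ ≤ ∑ l ∈ IX, ((Y.filter fun B => dist (cB n B) (c l) ≤ 2 ^ n * r').card : ℝ) := by
          exact_mod_cast Finset.card_biUnion_le
      _ ≤ ∑ l ∈ IX, γ * (2 ^ n * r') ^ 2 := by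
          apply Finset.sum_le_sum
          intro l _
          exact hY _ _ hr5 hR
      _ = _ := by rw [Finset.sum_const, nsmul_eq_mul]
  have hIXc : (IX.card : ℝ) ≤ 4913 * 2 ^ n := by
    rw [hIX, Finset.card_product, Finset.card_product, Finset.card_range, Finset.card_range]
    push_cast
    nlinarith
  have hdisj : (Z' : Set (Fin 3 → ℤ)).PairwiseDisjoint W := by
    intro B1 h1 B2 h2 hne
    rw [Function.onFun, Finset.disjoint_left]
    intro B hB1 hB2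
    apply hne
    have g1 := (Finset.mem_filter.1 (Finset.mem_coe.1 h1)).1
    have g2 := (Finset.mem_filter.1 (Finset.mem_coe.1 h2)).1
    rw [← ((hW B1 g1).2 B hB1).2, ← ((hW B2 g2).2 B hB2).2]
  have hlow : (2:ℝ) ^ q * Z'.card ≤ ((Z'.biUnion W).card : ℝ) := by
    rw [Finset.card_biUnion hdisj]
    push_cast
    calc (2:ℝ) ^ q * Z'.card = ∑ B' ∈ Z', (2:ℝ) ^ q := by rw [Finset.sum_const, nsmul_eq_mul]; ring
      _ ≤ _ := by
          apply Finset.sum_le_sum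
          intro B' hB'
          exact_mod_cast (hW B' (Finset.mem_filter.1 hB').1).1
  have h2q : (0:ℝ) < 2 ^ q := by positivity
  have hfin : (2:ℝ) ^ q * Z'.card ≤ 2 ^ q * (4913 * 2 ^ (3 * n) / 2 ^ q * γ * r' ^ 2) := by
    calc (2:ℝ) ^ q * Z'.card ≤ IX.card * (γ * (2 ^ n * r') ^ 2) := hlow.trans hcount
      _ ≤ 4913 * 2 ^ n * (γ * (2 ^ n * r') ^ 2) := by gcongr
      _ = 2 ^ q * (4913 * 2 ^ (3 * n) / 2 ^ q * γ * r' ^ 2) := by rw [hD3]; field_simp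
  exact le_of_mul_le_mul_left hfin h2q

end Vale.Agent.P076.H879
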