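import Vale.Agent.P076.H879.Rs
import Vale.Agent.P076.H879.Dcs

/-! # P076 / H879 : the induction hypothesis for one cap and one dyadic class of boxes -/

set_option autoImplicit false

open MeasureTheory Complex Set Vale.Agent.P122.C2 Vale.Agent.P122.AN Vale.Agent.P076.NS Vale.Agent.P076.H429
open scoped ENNReal NNReal FourierTransform

namespace Vale.Agent.P076.H879

theorem kids_iff {n : ℕ} {τ : Z2} : τ ∈ kids n 0 ↔ ∀ i, 0 ≤ τ i ∧ τ i < 2 ^ n := by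
  unfold kids
  rw [Fintype.mem_piFinset]
  refine forall_congr' fun i => ?_
  rw [Finset.mem_Ico]
  simp

theorem sh_inj (k n : ℕ) (τ : Z2) : Function.Injective (sh k n τ) := by
  intro a b h
  funext i
  have := congrFun h i
  simpa [sh] using this

theorem cut_sub {k n : ℕ} {G : Finset Z2} {τ : Z2} : cut k n G {τ} ⊆ desc k n 1 τ := by
  intro θ hθ
  unfold cut at hθ
  rw [Finset.mem_filter, Finset.mem_singleton] at hθ
  exact anc_mem.1 hθ.2

theorem sh_mem {k n : ℕ} {τ θ : Z2} (h : θ ∈ desc k n 1 τ) : sh k n τ θ ∈ desc (k - 1) n 0 0 := by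
  rw [H429.mem_desc] at h ⊢
  intro i
  have := h i
  unfold sh
  simp only [Nat.sub_zero, Pi.zero_apply, mul_zero, zero_add, mul_one]
  constructor
  · linarith [this.1]
  · have h2 := this.2
    rw [mul_add, mul_one] at h2
    linarith

theorem desc_one_sub {k n : ℕ} (hk : 1 ≤ k) {τ θ : Z2} (hτ : ∀ i, 0 ≤ τ i ∧ τ i < 2 ^ n) (h : θ ∈ desc k n 1 τ) : θ ∈ desc k n 0 0 := by
  rw [H429.mem_desc] at h ⊢
  intro i
  obtain ⟨h1, h2⟩ := h i
  obtain ⟨h3, h4⟩ := hτ i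
  have e : (2:ℤ) ^ ((k - 0) * n) = 2 ^ ((k - 1) * n) * 2 ^ n := by
    rw [← pow_add]; congr 1
    obtain ⟨m, rfl⟩ : ∃ m, k = m + 1 := ⟨k - 1, by omega⟩
    simp; ring
  have hp : (0:ℤ) < 2 ^ ((k - 1) * n) := by positivity
  simp only [Pi.zero_apply, mul_zero, zero_add, mul_one]
  rw [e]
  constructor
  · nlinarith
  · nlinarith

theorem anc_sh {k n j : ℕ} (hj1 : 1 ≤ j) (hj : j ≤ k) (τ θ : Z2) (i : Fin 2) :
    anc (k - 1) n (j - 1) (sh k n τ θ) i = anc k n j θ i - 2 ^ ((j - 1) * n) * τ i := by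
  unfold anc sh
  have e1 : k - 1 - (j - 1) = k - j := by omega
  have e2 : (2:ℤ) ^ ((k - 1) * n) = 2 ^ ((k - j) * n) * 2 ^ ((j - 1) * n) := by
    rw [← pow_add, ← add_mul]; congr 2; omega
  rw [e1, e2]
  have hp : (2:ℤ) ^ ((k - j) * n) ≠ 0 := by positivity
  have e3 : θ i - 2 ^ ((k - j) * n) * 2 ^ ((j - 1) * n) * τ i = θ i + 2 ^ ((k - j) * n) * (-(2 ^ ((j - 1) * n) * τ i)) := by ring
  rw [e3, Int.add_mul_ediv_left _ _ hp]
  ring

theorem uni_sh {k n j : ℕ} (hk : 1 ≤ k) (hj : j ≤ k) {G : Finset Z2} {τ : Z2} (hτ : ∀ i, 0 ≤ τ i ∧ τ i < 2 ^ n)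
    (hG : G ⊆ desc k n 0 0) (hU : Uni k n j G) : Uni (k - 1) n (j - 1) ((cut k n G {τ}).image (sh k n τ)) := by
  intro t1 h1 t2 h2 ha
  rw [Finset.mem_image] at h1 ⊢
  obtain ⟨θ1, hθ1, rfl⟩ := h1
  unfold cut at hθ1 ⊢
  rw [Finset.mem_filter, Finset.mem_singleton] at hθ1
  set θ2 : Z2 := fun i => t2 i + 2 ^ ((k - 1) * n) * τ i with hθ2
  have e2 : sh k n τ θ2 = t2 := by funext i; unfold sh; rw [hθ2]; ring
  have m2 : θ2 ∈ desc k n 1 τ := by
    rw [H429.mem_desc] at h2 ⊢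
    intro i
    have := h2 i
    simp only [Nat.sub_zero, Pi.zero_apply, mul_zero, zero_add, mul_one] at this
    rw [hθ2]
    simp only
    rw [mul_add, mul_one]
    constructor <;> linarith [this.1, this.2]
  have m2' := desc_one_sub hk hτ m2
  refine ⟨θ2, ?_, e2⟩
  rw [Finset.mem_filter, Finset.mem_singleton]
  refine ⟨?_, anc_mem.2 m2⟩
  refine hU θ1 hθ1.1 θ2 m2' ?_
  rcases Nat.eq_zero_or_pos j with h0 | h0
  · subst h0
    have z : ∀ θ ∈ desc k n 0 0, anc k n 0 θ = 0 := by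
      intro θ hθ
      funext i
      exact Vale.Agent.P122.AN.mem_desc.1 hθ i
    rw [z θ2 m2', z θ1 (hG hθ1.1)]
  · funext i
    have h3 := congrFun ha i
    rw [← e2, anc_sh h0 hj, anc_sh h0 hj] at h3
    linarith

theorem uF_sh (M k n : ℕ) (hk : 3 ≤ k) (g : Z2 → E3 → ℂ) (τ : Z2) (G : Finset Z2) (hG : G ⊆ desc k n 1 τ) (B : Fin 3 → ℤ) :
    uF M (k - 1) n (rs1 k n τ g) (G.image (sh k n τ)) (bx n τ B) ≤ ENNReal.ofReal (6 ^ M) * uF M k n g G B := by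
  unfold uF
  rw [Finset.sum_image fun a _ b _ h => sh_inj k n τ h, Finset.mul_sum]
  exact Finset.sum_le_sum fun θ hθ => u1_box M k n hk g τ θ B (hG hθ)

/-- the groups of boxes of one cap `τ` and of one class -/
structure Grp (M k n q i : ℕ) (g : Z2 → E3 → ℂ) (Y : Finset (Fin 3 → ℤ)) (G : (Fin 3 → ℤ) → Finset Z2) (β b' v : ℝ) (τ : Z2)
    (Y' : Finset (Fin 3 → ℤ)) (lam : (Fin 3 → ℤ) → Finset Z2) (W : (Fin 3 → ℤ) → Finset (Fin 3 → ℤ)) : Prop where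
  card : ∀ B' ∈ Y', 2 ^ q ≤ (W B').card
  mem : ∀ B' ∈ Y', ∀ B ∈ W B', B ∈ Y ∧ bx n τ B = B'
  lab : ∀ B' ∈ Y', ∀ B ∈ W B', cut k n (G B) {τ} = lam B'
  amp : ∀ B' ∈ Y', ∀ B ∈ W B', ENNReal.ofReal (β ^ 6 / 4 ^ (3 * i)) ≤ b6 M n B (sF g (lam B'))
  enr : b' = 1 ∨ ∀ B' ∈ Y', ∀ B ∈ W B', ENNReal.ofReal (6 ^ M) * uF M k n g (lam B') B ≤ ENNReal.ofReal (b' * v)

/-- **(★)** -/
theorem key (M : ℕ) (hM : 4 ≤ M) : ∃ s : ℝ, 1 ≤ s ∧ ∀ (c1 C0 A' b' γ β b : ℝ) (k n j N q i : ℕ) (g : Z2 → E3 → ℂ)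
    (Y Y' : Finset (Fin 3 → ℤ)) (G lam : (Fin 3 → ℤ) → Finset Z2) (W : (Fin 3 → ℤ) → Finset (Fin 3 → ℤ)) (τ : Z2),
    3 ≤ k → j ≤ k → τ ∈ kids n 0 → 0 < b' → b' ≤ 1 → 0 ≤ A' → Hyp C0 M k n j N g Y G γ β b →
    Grp M k n q i g Y G β b' (17 / s * (β ^ 2 / 4 ^ i * (γ / 2 ^ (k * n)) ^ (1 / 3 : ℝ))) τ Y' lam W →
    Claim c1 C0 M (k - 1) n (j - 1) N A' →
    ENNReal.ofReal (2 ^ q * β ^ 2 * Y'.card) ≤
      ENNReal.ofReal (289 * s * 4 ^ i * A' * b' ^ c1 * γ ^ (2 / 3 : ℝ) * 2 ^ (4 / 3 * (k * n : ℝ)) * 2 ^ (2 * n)) *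
        ms (k - 1) n (rs1 k n τ g) := by
  obtain ⟨Cs, hCs, HB⟩ := b6_box M hM
  refine ⟨Cs ^ (1 / 3 : ℝ), Real.one_le_rpow hCs (by norm_num), ?_⟩
  intro c1 C0 A' b' γ β b k n j N q i g Y Y' G lam W τ hk hj hτk hb0 hb1 hA' H HG HC
  have hτ := kids_iff.1 hτk
  set s : ℝ := Cs ^ (1 / 3 : ℝ) with hs
  have hs0 : 0 < s := by positivity
  set x : ℝ := (2 ^ q : ℝ) ^ (1 / 3 : ℝ) with hx
  set y : ℝ := (2 ^ n : ℝ) ^ (1 / 3 : ℝ) with hy
  have hx0 : 0 < x := by positivity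
  have hy0 : 0 < y := by positivity
  have hx3 : x ^ 3 = 2 ^ q := by
    rw [hx, ← Real.rpow_natCast, ← Real.rpow_mul (by positivity)]; norm_num
  have hy3 : y ^ 3 = 2 ^ n := by
    rw [hy, ← Real.rpow_natCast, ← Real.rpow_mul (by positivity)]; norm_num
  have hs3 : s ^ 3 = Cs := by
    rw [hs, ← Real.rpow_natCast, ← Real.rpow_mul (by positivity)]; norm_num
  have hγ := H.γ0
  have hβ := H.β0
  have e6 : (2:ℝ) ^ (2 * n) = y ^ 6 := by
    rw [mul_comm, pow_mul, ← hy3]; ring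
  have e12 : (2:ℝ) ^ (4 * n) = y ^ 12 := by
    rw [mul_comm, pow_mul, ← hy3]; ring
  have e9 : (2:ℝ) ^ (3 * n) = y ^ 9 := by
    rw [mul_comm, pow_mul, ← hy3]; ring
  -- new data
  set β' : ℝ := (x / (s * y ^ 4)) ^ (1 / 2 : ℝ) * (β / 2 ^ i) with hβ'
  set γ' : ℝ := 4913 * 2 ^ (3 * n) / 2 ^ q * γ with hγ'
  have hβ'0 : 0 < β' := by positivity
  have hγ'0 : 0 < γ' := by positivity
  have hβ'2 : β' ^ 2 = x / (s * y ^ 4) * (β ^ 2 / 4 ^ i) := by
    rw [hβ', mul_pow, ← Real.rpow_natCast, ← Real.rpow_mul (by positivity), div_pow, ← pow_mul, mul_comm i 2, pow_mul]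
    norm_num
  have hβ'6 : β' ^ 6 = 2 ^ q / (Cs * 2 ^ (4 * n)) * (β ^ 6 / 4 ^ (3 * i)) := by
    have : β' ^ 6 = (β' ^ 2) ^ 3 := by ring
    rw [this, hβ'2, mul_pow, div_pow, div_pow, mul_pow, hx3, hs3, e12]
    have e1 : (β ^ 2) ^ 3 = β ^ 6 := by ring
    have e2 : ((4:ℝ) ^ i) ^ 3 = 4 ^ (3 * i) := by rw [← pow_mul]; congr 1; ring
    have e3 : (y ^ 4) ^ 3 = y ^ 12 := by ring
    rw [e1, e2, e3]
  have hlamsub : ∀ B' ∈ Y', ∀ B ∈ W B', lam B' ⊆ desc k n 1 τ := by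
    intro B' hB' B hB
    rw [← HG.lab B' hB' B hB]
    exact cut_sub
  have hne : ∀ B' ∈ Y', (W B').Nonempty := by
    intro B' hB'
    have h1 := HG.card B' hB'
    have h2 : 0 < 2 ^ q := by positivity
    exact Finset.card_pos.1 (lt_of_lt_of_le h2 h1)
  have HYP : Hyp C0 M (k - 1) n (j - 1) N (rs1 k n τ g) Y' (fun B' => (lam B').image (sh k n τ)) γ' β' b' := by
    refine ⟨?_, hγ'0, ?_, hβ'0, hb0, hb1, ?_, ?_, ?_, ?_, ?_⟩
    · exact Par_rs1 H.par (by omega) τ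
    · exact dim_box k n q (by omega) τ hτ Y Y' γ hγ H.dim W fun B' hB' => ⟨HG.card B' hB', HG.mem B' hB'⟩
    · -- labels
      intro hj2 p'
      have hj2' : 2 ≤ j := by omega
      set r' : ℝ := 100 ^ (j - 1) * 2 ^ (2 * (j - 1) * n) with hr'
      have hr1 : (2:ℝ) ^ (2 * n) ≤ r' := by
        have h1 : (1:ℝ) ≤ 100 ^ (j - 1) := one_le_pow₀ (by norm_num)
        have h2 : (2:ℝ) ^ (2 * n) ≤ 2 ^ (2 * (j - 1) * n) := by
          apply pow_le_pow_right₀ (by norm_num)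
          apply Nat.mul_le_mul_right
          omega
        calc (2:ℝ) ^ (2 * n) = 1 * 2 ^ (2 * n) := by ring
          _ ≤ r' := by rw [hr']; gcongr
      have hr2 : 6 * 2 ^ (2 * n) * r' ≤ 100 ^ j * 2 ^ (2 * j * n) := by
        obtain ⟨m, rfl⟩ : ∃ m, j = m + 1 := ⟨j - 1, by omega⟩
        rw [hr']
        simp only [Nat.add_sub_cancel]
        have e : (2:ℝ) ^ (2 * (m + 1) * n) = 2 ^ (2 * n) * 2 ^ (2 * m * n) := by rw [← pow_add]; congr 1; ring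
        rw [e, pow_succ]
        have h1 : (0:ℝ) ≤ 100 ^ m * (2 ^ (2 * n) * 2 ^ (2 * m * n)) := by positivity
        nlinarith
      set p : E3 := !₂[2 ^ n * p' 0 + sl n τ 0 * (2 ^ (2 * n) * p' 2), 2 ^ n * p' 1 + sl n τ 1 * (2 ^ (2 * n) * p' 2),
        2 ^ (2 * n) * p' 2] with hp
      have hsub : ((Y'.filter fun B => dist (cB n B) p' ≤ r').image fun B' => (lam B').image (sh k n τ)) ⊆
          ((Y.filter fun B => dist (cB n B) p ≤ 100 ^ j * 2 ^ (2 * j * n)).image G).image fun G0 => (cut k n G0 {τ}).image (sh k n τ) := by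
        intro S hS
        rw [Finset.mem_image] at hS
        obtain ⟨B', hB', rfl⟩ := hS
        rw [Finset.mem_filter] at hB'
        obtain ⟨B, hB⟩ := hne B' hB'.1
        obtain ⟨hBY, hbx⟩ := HG.mem B' hB'.1 B hB
        rw [Finset.image_image, Finset.mem_image]
        refine ⟨B, Finset.mem_filter.2 ⟨hBY, ?_⟩, ?_⟩
        · refine (loc_ball n τ hτ B p' r' hr1 (by rw [hbx]; exact hB'.2)).trans hr2
        · simp only [Function.comp]
          rw [HG.lab B' hB'.1 B hB]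
      exact (Finset.card_le_card hsub).trans (Finset.card_image_le.trans (H.lab hj2' p))
    · intro B' hB' t ht
      rw [Finset.mem_image] at ht
      obtain ⟨θ, hθ, rfl⟩ := ht
      obtain ⟨B, hB⟩ := hne B' hB'
      exact sh_mem (hlamsub B' hB' B hB hθ)
    · intro B' hB'
      obtain ⟨B, hB⟩ := hne B' hB'
      have hBY := (HG.mem B' hB' B hB).1
      rw [← HG.lab B' hB' B hB]
      exact uni_sh (by omega) hj hτ (H.sub B hBY) (H.uni B hBY)
    · intro B' hB'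
      obtain ⟨B0, hB0⟩ := hne B' hB'
      have h1 := HB k n g τ (lam B') B' (W B') (by omega) H.par.int hτ (hlamsub B' hB' B0 hB0) fun B hB => (HG.mem B' hB' B hB).2
      have h2 : ENNReal.ofReal (2 ^ q * (β ^ 6 / 4 ^ (3 * i))) ≤ ∑ B ∈ W B', b6 M n B (sF g (lam B')) := by
        calc ENNReal.ofReal (2 ^ q * (β ^ 6 / 4 ^ (3 * i))) ≤ ENNReal.ofReal ((W B').card * (β ^ 6 / 4 ^ (3 * i))) := by
              apply ENNReal.ofReal_le_ofReal
              gcongr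
              exact_mod_cast HG.card B' hB'
          _ = ∑ B ∈ W B', ENNReal.ofReal (β ^ 6 / 4 ^ (3 * i)) := by
              rw [Finset.sum_const, nsmul_eq_mul, ENNReal.ofReal_mul (by positivity), ENNReal.ofReal_natCast]
          _ ≤ _ := Finset.sum_le_sum fun B hB => HG.amp B' hB' B hB
      have h3 := h2.trans h1
      have e : (2:ℝ) ^ q * (β ^ 6 / 4 ^ (3 * i)) = (Cs * 2 ^ (4 * n)) * β' ^ 6 := by
        rw [hβ'6]; field_simp
      rw [e, ENNReal.ofReal_mul (by positivity)] at h3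
      exact (ENNReal.mul_le_mul_iff_right (by
        rw [Ne, ENNReal.ofReal_eq_zero, not_le]; positivity) ENNReal.ofReal_ne_top).1 h3
    · rcases HG.enr with h | h
      · exact Or.inl h
      · refine Or.inr fun B' hB' => ?_
        obtain ⟨B, hB⟩ := hne B' hB'
        have hbx := (HG.mem B' hB' B hB).2
        rw [← hbx]
        have h1 := uF_sh M k n hk g τ (lam (bx n τ B)) (by rw [hbx]; exact hlamsub B' hB' B hB) B
        refine h1.trans ?_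
        rw [hbx]
        refine (h B' hB' B hB).trans (le_of_eq ?_)
        congr 2
        rw [hβ'2]
        obtain ⟨m, rfl⟩ : ∃ m, k = m + 1 := ⟨k - 1, by omega⟩
        simp only [Nat.add_sub_cancel]
        have e1 : γ' / 2 ^ (m * n) = 4913 * y ^ 12 / x ^ 3 * (γ / 2 ^ ((m + 1) * n)) := by
          rw [hγ', ← hx3, e9]
          have : (2:ℝ) ^ ((m + 1) * n) = y ^ 3 * 2 ^ (m * n) := by rw [hy3, ← pow_add]; congr 1; ring
          rw [this]; field_simp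
        have e2 : (4913 * y ^ 12 / x ^ 3 * (γ / 2 ^ ((m + 1) * n))) ^ (1 / 3 : ℝ) = 17 * y ^ 4 / x * (γ / 2 ^ ((m + 1) * n)) ^ (1 / 3 : ℝ) := by
          rw [Real.mul_rpow (by positivity) (by positivity)]
          congr 1
          have : 4913 * y ^ 12 / x ^ 3 = (17 * y ^ 4 / x) ^ (3:ℝ) := by
            rw [show (3:ℝ) = ((3:ℕ):ℝ) by norm_num, Real.rpow_natCast, div_pow, mul_pow]; norm_num; ring
          rw [this, ← Real.rpow_mul (by positivity)]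
          norm_num
        rw [e1, e2]
        field_simp
  have hE := HC _ _ _ _ _ _ HYP
  unfold Est at hE
  -- final computation
  have e1 : 2 ^ q * β ^ 2 * (Y'.card : ℝ) = (x ^ 2 * s * y ^ 4 * 4 ^ i) * (β' ^ 2 * Y'.card) := by
    rw [hβ'2, ← hx3]; field_simp
  have e2 : γ' ^ (2 / 3 : ℝ) = 289 * y ^ 6 / x ^ 2 * γ ^ (2 / 3 : ℝ) := by
    rw [hγ', ← hx3, e9, Real.mul_rpow (by positivity) (by positivity)]
    congr 1
    have : 4913 * y ^ 9 / x ^ 3 = (17 * y ^ 3 / x) ^ (3:ℝ) := by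
      rw [show (3:ℝ) = ((3:ℕ):ℝ) by norm_num, Real.rpow_natCast, div_pow, mul_pow]; norm_num; ring
    rw [this, ← Real.rpow_mul (by positivity)]
    norm_num
    ring
  have e3 : (2:ℝ) ^ (4 / 3 * (k * n : ℝ)) = 2 ^ (4 / 3 * (((k - 1 : ℕ) : ℝ) * n)) * y ^ 4 := by
    have h1 : (((k - 1 : ℕ)) : ℝ) = k - 1 := by
      rw [Nat.cast_sub (by omega)]; norm_num
    have h2 : y ^ 4 = 2 ^ (4 / 3 * (n:ℝ)) := by
      rw [hy, ← Real.rpow_natCast, ← Real.rpow_mul (by positivity), ← Real.rpow_natCast, ← Real.rpow_mul (by norm_num)]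
      congr 1; push_cast; ring
    rw [h1, h2, ← Real.rpow_add (by norm_num)]
    congr 1; ring
  rw [e1, ENNReal.ofReal_mul (by positivity)]
  calc _ ≤ ENNReal.ofReal (x ^ 2 * s * y ^ 4 * 4 ^ i) *
        (ENNReal.ofReal (A' * b' ^ c1 * γ' ^ (2 / 3 : ℝ) * 2 ^ (4 / 3 * (((k - 1 : ℕ) : ℝ) * n))) * ms (k - 1) n (rs1 k n τ g)) := by
        gcongr
    _ = _ := by
        rw [← mul_assoc, ← ENNReal.ofReal_mul (by positivity)]
        congr 2
        rw [e2, e3, e6]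
        field_simp

end Vale.Agent.P076.H879
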