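import Vale.Agent.P076.H879.Key
import Vale.Agent.P076.H879.Cnt

/-! # P076 / H879 : the narrow cubes: choice of the caps -/

set_option autoImplicit false

open MeasureTheory Complex Set Vale.Agent.P122.C2 Vale.Agent.P122.AN Vale.Agent.P076.NS Vale.Agent.P076.H429
open scoped ENNReal NNReal FourierTransform

namespace Vale.Agent.P076.H879

theorem card_kids (n : ℕ) : (kids n (0 : Z2)).card = 4 ^ n := by
  unfold kids
  rw [Fintype.card_piFinset]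
  simp only [Pi.zero_apply, mul_zero, zero_add, mul_one, Int.card_Ico, sub_zero, Fin.prod_univ_two]
  have : ((2:ℤ) ^ n).toNat = 2 ^ n := by exact_mod_cast Int.toNat_natCast (2 ^ n)
  rw [this, ← mul_pow]
  norm_num

/-- properties of the choice at the narrow cube `B` -/
structure Cho (M k n : ℕ) (g : Z2 → E3 → ℂ) (GB : Finset Z2) (γ β b X : ℝ) (I : ℕ) (B : Fin 3 → ℤ) (i : ℕ) (T Ts : Finset Z2) : Prop where
  iI : i ≤ I
  sub : T ⊆ kids n 0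
  ne : T.Nonempty
  subs : Ts ⊆ T
  half : (T.card : ℝ) ≤ 2 * Ts.card
  amp : ∀ τ ∈ T, ENNReal.ofReal (β ^ 2 / 4 ^ i) ≤ (b6 M n B (sF g (cut k n GB {τ}))) ^ (1 / 3 : ℝ)
  big : X * 4 ^ i ≤ 8 * I * T.card
  enr : b = 1 ∨ ∀ τ ∈ Ts, uF M k n g (cut k n GB {τ}) B ≤ ENNReal.ofReal (2 * (b * (β ^ 2 * (γ / 2 ^ (k * n)) ^ (1 / 3 : ℝ))) / T.card)

theorem uF_cut_sum (M k n : ℕ) (g : Z2 → E3 → ℂ) (G T : Finset Z2) (B : Fin 3 → ℤ) :
    ∑ τ ∈ T, uF M k n g (cut k n G {τ}) B ≤ uF M k n g G B := by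
  classical
  unfold uF
  rw [← Finset.sum_biUnion]
  · apply Finset.sum_le_sum_of_subset
    intro θ hθ
    rw [Finset.mem_biUnion] at hθ
    obtain ⟨τ, _, h⟩ := hθ
    unfold cut at h
    exact (Finset.mem_filter.1 h).1
  · intro τ _ τ' _ hne
    rw [Function.onFun, Finset.disjoint_left]
    intro θ h1 h2
    unfold cut at h1 h2
    rw [Finset.mem_filter, Finset.mem_singleton] at h1 h2
    exact hne (h1.2.symm.trans h2.2)

theorem choice (hDEC : StDEC) (ε : ℝ) (M : ℕ) (C0 : ℝ) (hε : 0 < ε) (hM : 4 ≤ M) (hC0 : 1 ≤ C0) : ∃ (CD : ℝ) (a : ℕ), 1 ≤ CD ∧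
    ∀ (c γ β b : ℝ) (k n : ℕ) (g : Z2 → E3 → ℂ) (GB : Finset Z2) (B : Fin 3 → ℤ), 0 < c → 2 * c + ε ≤ 1 → 1 ≤ k → 1 ≤ n → 0 < γ →
      0 < β → 0 < b → Par C0 k n g → GB ⊆ desc k n 0 0 → ¬ BroadAt c M k n g GB β B →
      (b = 1 ∨ uF M k n g GB B ≤ ENNReal.ofReal (b * (β ^ 2 * (γ / 2 ^ (k * n)) ^ (1 / 3 : ℝ)))) →
      ∃ (i : ℕ) (T Ts : Finset Z2), Cho M k n g GB γ β b ((CD * 2 ^ ((2 * c + ε) * n))⁻¹) ((2 + a) * n) B i T Ts := by
  obtain ⟨CD, hCD, HD⟩ := dec_b6 hDEC ε M C0 hε hM hC0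
  obtain ⟨a, ha⟩ : ∃ a : ℕ, 2 * CD ≤ 4 ^ a := by
    obtain ⟨a, ha⟩ := pow_unbounded_of_one_lt (2 * CD) (by norm_num : (1:ℝ) < 4)
    exact ⟨a, ha.le⟩
  refine ⟨CD, a, hCD, ?_⟩
  intro c γ β b k n g GB B hc hce hk hn hγ hβ hb hg hG hnb hen
  unfold BroadAt at hnb
  push Not at hnb
  obtain ⟨S, hS, hSt, hbig⟩ := hnb
  set X : ℝ := (CD * 2 ^ ((2 * c + ε) * n))⁻¹ with hX
  have hX0 : 0 < X := by positivity
  have hge1 : (1:ℝ) ≤ 2 ^ ((2 * c + ε) * n) := Real.one_le_rpow (by norm_num) (by positivity)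
  have hX1 : X ≤ 1 := by
    rw [hX]
    apply inv_le_one_of_one_le₀
    nlinarith
  have hdec := HD k n g GB S B hk hg hG hSt
  -- lower bound
  have hlow : ENNReal.ofReal (X * β ^ 2) ≤ ∑ τ ∈ S, (b6 M n B (sF g (cut k n GB {τ}))) ^ (1 / 3 : ℝ) := by
    have h1 : ENNReal.ofReal (2 ^ (-(2 * c * n)) * β ^ 2) ≤ (b6 M n B (sF g (cut k n GB S))) ^ (1 / 3 : ℝ) := by
      have h2 := ENNReal.rpow_le_rpow hbig (by norm_num : (0:ℝ) ≤ 1 / 3)
      refine le_trans (le_of_eq ?_) h2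
      rw [ENNReal.ofReal_rpow_of_nonneg (by positivity) (by norm_num)]
      congr 1
      rw [Real.mul_rpow (by positivity) (by positivity), ← Real.rpow_mul (by norm_num), ← Real.rpow_natCast β 6, ← Real.rpow_mul hβ.le,
        ← Real.rpow_natCast β 2]
      congr 2
      · ring
      · norm_num
    have h3 := h1.trans hdec
    have e : 2 ^ (-(2 * c * n)) * β ^ 2 = (CD * 2 ^ (ε * n)) * (X * β ^ 2) := by
      rw [hX, mul_inv]
      have : (2:ℝ) ^ ((2 * c + ε) * n) = 2 ^ (2 * c * n) * 2 ^ (ε * n) := by rw [← Real.rpow_add (by norm_num)]; congr 1; ring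
      rw [this, Real.rpow_neg (by norm_num)]
      field_simp
    rw [e, ENNReal.ofReal_mul (by positivity)] at h3
    exact (ENNReal.mul_le_mul_iff_right (by
      rw [Ne, ENNReal.ofReal_eq_zero, not_le]; positivity) ENNReal.ofReal_ne_top).1 h3
  have hSc : S.card ≤ 4 ^ n := by
    rw [← card_kids n]; exact Finset.card_le_card hS
  have hIX : 2 * 4 ^ n ≤ X * 4 ^ ((2 + a) * n) := by
    have h1 : (2:ℝ) ^ ((2 * c + ε) * n) ≤ 2 ^ n := by
      rw [← Real.rpow_natCast 2 n]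
      apply Real.rpow_le_rpow_of_exponent_le (by norm_num)
      have : (0:ℝ) ≤ n := Nat.cast_nonneg n
      nlinarith
    have h2 : (4:ℝ) ^ ((2 + a) * n) = 4 ^ n * (4 ^ n * (4 ^ a) ^ n) := by
      rw [← pow_mul, ← pow_add, ← pow_add]; congr 1; ring
    have h3 : (4:ℝ) ^ a ≤ (4 ^ a) ^ n := by
      apply le_self_pow₀ (one_le_pow₀ (by norm_num)) (by omega)
    have h4 : (2:ℝ) ^ n ≤ 4 ^ n := pow_le_pow_left₀ (by norm_num) (by norm_num) n
    rw [h2, hX, inv_mul_eq_div, le_div_iff₀ (by positivity)]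
    calc 2 * 4 ^ n * (CD * 2 ^ ((2 * c + ε) * n)) ≤ 2 * 4 ^ n * (CD * 4 ^ n) := by
          gcongr
          exact h1.trans h4
      _ = 4 ^ n * (4 ^ n * (2 * CD)) := by ring
      _ ≤ 4 ^ n * (4 ^ n * (4 ^ a) ^ n) := by
          gcongr
          exact ha.trans h3
  have hI1 : 1 ≤ (2 + a) * n := by nlinarith
  obtain ⟨i, hi, T, hTS, hTne, hTq, hbigT⟩ := pig1 S n ((2 + a) * n) hSc _ (β ^ 2) X (by positivity) hX0 hX1 hI1 hIX hlow
  have hTk : T ⊆ kids n 0 := hTS.trans hS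
  rcases hen with hb1 | hen
  · refine ⟨i, T, T, hi, hTk, hTne, subset_rfl, ?_, hTq, hbigT, Or.inl hb1⟩
    have : (0:ℝ) ≤ T.card := Nat.cast_nonneg _
    linarith
  · set Θ : ℝ := b * (β ^ 2 * (γ / 2 ^ (k * n)) ^ (1 / 3 : ℝ)) with hΘ
    have hΘ0 : 0 < Θ := by positivity
    obtain ⟨Ts, hTs, hhalf, hu⟩ := markov T (fun τ => uF M k n g (cut k n GB {τ}) B) Θ hΘ0 hTne ((uF_cut_sum M k n g GB T B).trans hen)
    exact ⟨i, T, Ts, hi, hTk, hTne, hTs, hhalf, hTq, hbigT, Or.inr hu⟩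

end Vale.Agent.P076.H879
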