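import Mathlib

/-! # P076 / H879 : pigeonholing lemmas of the narrow step -/

set_option autoImplicit false

open scoped ENNReal

namespace Vale.Agent.P076.H879

/-- choice of a dyadic value: only lower bounds are kept, so there are `I + 1` classes -/
theorem pig1 {ι : Type*} (S : Finset ι) (n I : ℕ) (hS : S.card ≤ 4 ^ n) (q : ι → ℝ≥0∞) (B X : ℝ) (hB : 0 < B) (hX : 0 < X)
    (hX1 : X ≤ 1) (hI : 1 ≤ I) (hIX : 2 * 4 ^ n ≤ X * 4 ^ I) (h : ENNReal.ofReal (X * B) ≤ ∑ τ ∈ S, q τ) :
    ∃ i ≤ I, ∃ T ⊆ S, T.Nonempty ∧ (∀ τ ∈ T, ENNReal.ofReal (B / 4 ^ i) ≤ q τ) ∧ X * 4 ^ i ≤ 8 * I * T.card := by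
  classical
  have hI' : (1:ℝ) ≤ I := by exact_mod_cast hI
  by_cases hc : ∃ τ ∈ S, ENNReal.ofReal B ≤ q τ
  · obtain ⟨τ, hτ, hq⟩ := hc
    refine ⟨0, Nat.zero_le _, {τ}, by simpa using hτ, by simp, ?_, ?_⟩
    · intro τ' h'
      rw [Finset.mem_singleton] at h'
      subst h'
      simpa using hq
    · simp only [pow_zero, mul_one, Finset.card_singleton, Nat.cast_one]
      linarith
  push Not at hc
  by_contra hcon
  push Not at hcon
  -- real values
  have hfin : ∀ τ ∈ S, q τ ≠ ⊤ := fun τ hτ => ((hc τ hτ).trans ENNReal.ofReal_lt_top).ne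
  have hsum : X * B ≤ ∑ τ ∈ S, (q τ).toReal := by
    rw [← ENNReal.toReal_sum hfin]
    exact (ENNReal.ofReal_le_iff_le_toReal (ENNReal.sum_ne_top.2 hfin)).1 h
  have hr : ∀ τ ∈ S, (q τ).toReal < B := by
    intro τ hτ
    have := hc τ hτ
    rw [← ENNReal.ofReal_toReal (hfin τ hτ)] at this
    exact (ENNReal.ofReal_lt_ofReal_iff hB).1 this
  have hcard : ∀ i, 1 ≤ i → i ≤ I → 8 * (I:ℝ) * ((S.filter fun τ => B / 4 ^ i ≤ (q τ).toReal).card : ℝ) < X * 4 ^ i := by
    intro i hi1 hi2
    by_cases hne : (S.filter fun τ => B / 4 ^ i ≤ (q τ).toReal).Nonempty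
    · refine hcon i hi2 _ (Finset.filter_subset _ _) hne ?_
      intro τ hτ
      rw [Finset.mem_filter] at hτ
      rw [← ENNReal.ofReal_toReal (hfin τ hτ.1)]
      exact ENNReal.ofReal_le_ofReal hτ.2
    · rw [Finset.not_nonempty_iff_eq_empty] at hne
      rw [hne]
      simp only [Finset.card_empty, Nat.cast_zero, mul_zero]
      positivity
  -- pointwise bound
  have hpt : ∀ τ ∈ S, (q τ).toReal ≤ B / 4 ^ I + ∑ i ∈ Finset.Icc 1 I, (4 * (B / 4 ^ i)) * (if B / 4 ^ i ≤ (q τ).toReal then 1 else 0) := by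
    intro τ hτ
    by_cases hsmall : (q τ).toReal ≤ B / 4 ^ I
    · refine hsmall.trans (le_add_of_nonneg_right (Finset.sum_nonneg fun i _ => ?_))
      have : (0:ℝ) ≤ (if B / 4 ^ i ≤ (q τ).toReal then 1 else 0) := by split_ifs <;> norm_num
      positivity
    · push Not at hsmall
      -- the least i with B/4^i ≤ r
      have hex : ∃ i, B / 4 ^ i ≤ (q τ).toReal := ⟨I, hsmall.le⟩
      set i := Nat.find hex with hi
      have hi1 : B / 4 ^ i ≤ (q τ).toReal := Nat.find_spec hex
      have hiI : i ≤ I := Nat.find_min' hex hsmall.le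
      have hi0 : i ≠ 0 := by
        intro h0
        rw [h0] at hi1
        have := hr τ hτ
        simp at hi1
        linarith
      have hi2 : (q τ).toReal < B / 4 ^ (i - 1) := by
        have := Nat.find_min hex (m := i - 1) (by omega)
        push Not at this
        exact this
      have he : B / 4 ^ (i - 1) = 4 * (B / 4 ^ i) := by
        obtain ⟨k, hk⟩ : ∃ k, i = k + 1 := ⟨i - 1, by omega⟩
        rw [hk]
        simp only [Nat.add_sub_cancel]
        rw [pow_succ]
        field_simp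
      have hmem : i ∈ Finset.Icc 1 I := Finset.mem_Icc.2 ⟨by omega, hiI⟩
      have hle := Finset.single_le_sum (f := fun i => (4 * (B / 4 ^ i)) * (if B / 4 ^ i ≤ (q τ).toReal then (1:ℝ) else 0))
        (fun i _ => by
          have : (0:ℝ) ≤ (if B / 4 ^ i ≤ (q τ).toReal then 1 else 0) := by split_ifs <;> norm_num
          positivity) hmem
      simp only [hi1, if_true, mul_one] at hle
      have : 0 ≤ B / 4 ^ I := by positivity
      linarith
  have htot : ∑ τ ∈ S, (q τ).toReal < X * B := by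
    calc ∑ τ ∈ S, (q τ).toReal
        ≤ ∑ τ ∈ S, (B / 4 ^ I + ∑ i ∈ Finset.Icc 1 I, (4 * (B / 4 ^ i)) * (if B / 4 ^ i ≤ (q τ).toReal then 1 else 0)) :=
          Finset.sum_le_sum hpt
      _ = S.card * (B / 4 ^ I) + ∑ i ∈ Finset.Icc 1 I, (4 * (B / 4 ^ i)) * ((S.filter fun τ => B / 4 ^ i ≤ (q τ).toReal).card : ℝ) := by
          rw [Finset.sum_add_distrib, Finset.sum_const, nsmul_eq_mul, Finset.sum_comm]
          congr 1
          apply Finset.sum_congr rfl; intro i _
          rw [← Finset.mul_sum, Finset.sum_ite, Finset.sum_const_zero, add_zero, Finset.sum_const, nsmul_eq_mul, mul_one]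
      _ < X * B / 2 + ∑ i ∈ Finset.Icc 1 I, (X * B / (2 * I)) := by
          apply add_lt_add_of_le_of_lt
          · have h1 : (S.card : ℝ) ≤ 4 ^ n := by exact_mod_cast hS
            calc (S.card : ℝ) * (B / 4 ^ I) ≤ 4 ^ n * (B / 4 ^ I) := by gcongr
              _ = (2 * 4 ^ n) * (B / (2 * 4 ^ I)) := by ring
              _ ≤ (X * 4 ^ I) * (B / (2 * 4 ^ I)) := by gcongr
              _ = X * B / 2 := by field_simp
          · apply Finset.sum_lt_sum_of_nonempty (Finset.nonempty_Icc.2 hI)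
            intro i hi
            rw [Finset.mem_Icc] at hi
            have h1 := hcard i hi.1 hi.2
            have h4 : (0:ℝ) < 4 ^ i := by positivity
            rw [lt_div_iff₀ (by positivity)]
            have e : 4 * (B / 4 ^ i) * ((S.filter fun τ => B / 4 ^ i ≤ (q τ).toReal).card : ℝ) * (2 * I) =
              (B / 4 ^ i) * (8 * I * ((S.filter fun τ => B / 4 ^ i ≤ (q τ).toReal).card : ℝ)) := by ring
            rw [e]
            calc _ < (B / 4 ^ i) * (X * 4 ^ i) := by
                  apply mul_lt_mul_of_pos_left h1 (by positivity)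
              _ = X * B := by field_simp
      _ = X * B := by
          rw [Finset.sum_const, nsmul_eq_mul, Nat.card_Icc, Nat.add_sub_cancel]
          field_simp
          ring
  linarith

/-- Markov -/
theorem markov {ι : Type*} (T : Finset ι) (u : ι → ℝ≥0∞) (Θ : ℝ) (hΘ : 0 < Θ) (hT : T.Nonempty)
    (h : ∑ τ ∈ T, u τ ≤ ENNReal.ofReal Θ) :
    ∃ T' ⊆ T, (T.card : ℝ) ≤ 2 * T'.card ∧ ∀ τ ∈ T', u τ ≤ ENNReal.ofReal (2 * Θ / T.card) := by
  classical
  refine ⟨T.filter fun τ => u τ ≤ ENNReal.ofReal (2 * Θ / T.card), Finset.filter_subset _ _, ?_, fun τ hτ => (Finset.mem_filter.1 hτ).2⟩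
  have hc0 : (0:ℝ) < T.card := by exact_mod_cast hT.card_pos
  set T1 := T.filter fun τ => u τ ≤ ENNReal.ofReal (2 * Θ / T.card) with hT1
  set T2 := T.filter fun τ => ¬ u τ ≤ ENNReal.ofReal (2 * Θ / T.card) with hT2
  have hcard : T1.card + T2.card = T.card := Finset.card_filter_add_card_filter_not _
  have h2 : (T2.card : ℝ≥0∞) * ENNReal.ofReal (2 * Θ / T.card) ≤ ENNReal.ofReal Θ := by
    calc (T2.card : ℝ≥0∞) * ENNReal.ofReal (2 * Θ / T.card) = ∑ τ ∈ T2, ENNReal.ofReal (2 * Θ / T.card) := by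
          rw [Finset.sum_const, nsmul_eq_mul]
      _ ≤ ∑ τ ∈ T2, u τ := by
          apply Finset.sum_le_sum
          intro τ hτ
          exact (not_le.1 (Finset.mem_filter.1 hτ).2).le
      _ ≤ ∑ τ ∈ T, u τ := Finset.sum_le_sum_of_subset (Finset.filter_subset _ _)
      _ ≤ _ := h
  have h3 : (T2.card : ℝ) * (2 * Θ / T.card) ≤ Θ := by
    rw [← ENNReal.ofReal_natCast, ← ENNReal.ofReal_mul (by positivity)] at h2
    exact (ENNReal.ofReal_le_ofReal_iff hΘ.le).1 h2
  have h4 : (2 * (T2.card : ℝ)) ≤ T.card := by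
    have e : (T2.card : ℝ) * (2 * Θ / T.card) = (2 * (T2.card : ℝ)) * Θ / T.card := by ring
    rw [e, div_le_iff₀ hc0] at h3
    have := le_of_mul_le_mul_right (by linarith : (2 * (T2.card : ℝ)) * Θ ≤ T.card * Θ) hΘ
    exact this
  have h5 : (T1.card : ℝ) + T2.card = T.card := by exact_mod_cast hcard
  linarith

/-- popular value -/
theorem popular {α Λ : Type*} [DecidableEq Λ] (Z : Finset α) (lab : α → Λ) (N : ℕ) (hne : Z.Nonempty) (hN : (Z.image lab).card ≤ N) :
    ∃ l ∈ Z.image lab, (Z.card : ℝ) ≤ N * ((Z.filter fun B => lab B = l).card : ℝ) := by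
  classical
  by_contra hcon
  push Not at hcon
  have h1 : (Z.card : ℝ) = ∑ l ∈ Z.image lab, ((Z.filter fun B => lab B = l).card : ℝ) := by
    rw [Finset.card_eq_sum_card_image lab Z]
    push_cast
    rfl
  have hZ : (0:ℝ) < Z.card := by exact_mod_cast hne.card_pos
  have hne' : (Z.image lab).Nonempty := hne.image _
  have hN0 : (0:ℝ) < N := by
    have := hne'.card_pos
    exact_mod_cast lt_of_lt_of_le this hN
  have h2 : ∑ l ∈ Z.image lab, ((Z.filter fun B => lab B = l).card : ℝ) < ∑ l ∈ Z.image lab, (Z.card : ℝ) / N := by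
    apply Finset.sum_lt_sum_of_nonempty hne'
    intro l hl
    rw [lt_div_iff₀ hN0]
    have := hcon l hl
    linarith
  rw [Finset.sum_const, nsmul_eq_mul, ← h1] at h2
  have h3 : ((Z.image lab).card : ℝ) * (Z.card / N) ≤ N * (Z.card / N) := by
    gcongr
  have h4 : (N:ℝ) * (Z.card / N) = Z.card := by field_simp
  linarith

end Vale.Agent.P076.H879
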