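import Vale.Agent.P076.H879.Geo
import Vale.Agent.P076.H429.RescW
import Vale.Agent.P122.H466.Pie
import Vale.Agent.P122.AN275.Gau

/-! # P076 / H879 : what the parabolic rescaling does to `b6` and `u1` -/

set_option autoImplicit false

open MeasureTheory Complex Set Vale.Agent.P122.C2 Vale.Agent.P122.AN Vale.Agent.P076.NS Vale.Agent.P076.H429
open scoped ENNReal NNReal FourierTransform

namespace Vale.Agent.P076.H879

/-- shift of the indices of the caps below `τ` -/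
def sh (k n : ℕ) (τ θ : Z2) : Z2 := fun i => θ i - 2 ^ ((k - 1) * n) * τ i

theorem gau0 (ρ : ℝ) (z c : E3) : gau 0 ρ ρ ρ 0 (z - c) = |z 0 - c 0| / ρ + |z 1 - c 1| / ρ + |z 2 - c 2| / ρ := by
  unfold gau
  rw [Vale.Agent.P122.AN275.fw_zero_frame, Vale.Agent.P122.AN275.fn_zero_frame]
  simp [dv]

/-- the weight of a cube, in the coordinates `x = z / D²` -/
theorem wB_eq (M n : ℕ) (B : Fin 3 → ℤ) (z : E3) :
    wB M n B z = ENNReal.ofReal (((1 + (|z 0 / 2 ^ (2 * n) - B 0| + |z 1 / 2 ^ (2 * n) - B 1| + |z 2 / 2 ^ (2 * n) - B 2|)) ^ M)⁻¹) := by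
  unfold wB wg
  rw [gau0]
  have hp : (0:ℝ) < 2 ^ (2 * n) := by positivity
  have e : ∀ i : Fin 3, |z i - cB n B i| / 2 ^ (2 * n) = |z i / 2 ^ (2 * n) - B i| := by
    intro i
    rw [cBi]
    have : z i / 2 ^ (2 * n) - B i = (z i - 2 ^ (2 * n) * B i) / 2 ^ (2 * n) := by field_simp
    rw [this, abs_div, abs_of_pos hp]
  rw [e 0, e 1, e 2]

theorem superpos_wB (M : ℕ) (hM : 4 ≤ M) : ∃ C : ℝ, 1 ≤ C ∧ ∀ (n : ℕ) (τ : Z2) (B' : Fin 3 → ℤ) (U : Finset (Fin 3 → ℤ)),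
    (∀ i, 0 ≤ τ i ∧ τ i < 2 ^ n) → (∀ B ∈ U, bx n τ B = B') → ∀ z : E3,
    ∑ B ∈ U, wB M n B z ≤ ENNReal.ofReal C * wB M n B' (Amap n τ z) := by
  obtain ⟨C, hC, H⟩ := superpos M hM
  refine ⟨max C 1, le_max_right _ _, ?_⟩
  intro n τ B' U hτ hU z
  have h := H n τ B' U hτ hU (fun i => z i / 2 ^ (2 * n))
  have hp : (0:ℝ) < 2 ^ (2 * n) := by positivity
  have hp' : (0:ℝ) < 2 ^ n := by positivity
  have e0 : (z 0 / 2 ^ (2 * n) - (τ 0 : ℝ) / 2 ^ n * (z 2 / 2 ^ (2 * n))) / 2 ^ n - B' 0 = (Amap n τ z) 0 / 2 ^ (2 * n) - B' 0 := by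
    rw [Amap_zero]; ring
  have e1 : (z 1 / 2 ^ (2 * n) - (τ 1 : ℝ) / 2 ^ n * (z 2 / 2 ^ (2 * n))) / 2 ^ n - B' 1 = (Amap n τ z) 1 / 2 ^ (2 * n) - B' 1 := by
    rw [Amap_one]; ring
  have e2 : z 2 / 2 ^ (2 * n) / 2 ^ (2 * n) - B' 2 = (Amap n τ z) 2 / 2 ^ (2 * n) - B' 2 := by
    rw [Amap_two]
  rw [e0, e1, e2] at h
  simp_rw [wB_eq]
  rw [← ENNReal.ofReal_sum_of_nonneg (fun B _ => by positivity), ← ENNReal.ofReal_mul (by positivity)]
  refine (ENNReal.ofReal_le_ofReal h).trans (ENNReal.ofReal_le_ofReal ?_)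
  gcongr
  exact le_max_left _ _

theorem measurable_wB (M n : ℕ) (B : Fin 3 → ℤ) : Measurable (wB M n B) :=
  Vale.Agent.P122.AN275.measurable_wg_sub M 0 _ _ _ 0 (cB n B)

theorem continuous_sF {g : Z2 → E3 → ℂ} (hg : ∀ θ, Integrable (g θ)) (G : Finset Z2) : Continuous (sF g G) := by
  unfold sF
  exact continuous_finsetSum _ fun θ _ => Vale.Agent.P122.AN.continuous_inv (hg θ)

/-- **(U1)** the `L⁶` mean of the rescaled function on the cube `B'` -/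
theorem b6_box (M : ℕ) (hM : 4 ≤ M) : ∃ C : ℝ, 1 ≤ C ∧ ∀ (k n : ℕ) (g : Z2 → E3 → ℂ) (τ : Z2) (G : Finset Z2) (B' : Fin 3 → ℤ)
    (U : Finset (Fin 3 → ℤ)), 1 ≤ k → (∀ θ, Integrable (g θ)) → (∀ i, 0 ≤ τ i ∧ τ i < 2 ^ n) → G ⊆ desc k n 1 τ →
    (∀ B ∈ U, bx n τ B = B') →
    ∑ B ∈ U, b6 M n B (sF g G) ≤ ENNReal.ofReal (C * 2 ^ (4 * n)) * b6 M n B' (sF (rs1 k n τ g) (G.image (sh k n τ))) := by
  obtain ⟨C, hC, H⟩ := superpos_wB M hM
  refine ⟨C, hC, ?_⟩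
  intro k n g τ G B' U hk hg hτ hG hU
  unfold b6
  have hm : Measurable fun z => ‖sF g G z‖ₑ ^ 6 := (continuous_sF hg G).enorm.measurable.pow_const _
  have hs : ∑ B ∈ U, ∫⁻ z, ‖sF g G z‖ₑ ^ 6 * wB M n B z = ∫⁻ z, ∑ B ∈ U, ‖sF g G z‖ₑ ^ 6 * wB M n B z :=
    (lintegral_finsetSum U (f := fun B z => ‖sF g G z‖ₑ ^ 6 * wB M n B z) (fun B _ => hm.mul (measurable_wB M n B))).symm
  rw [← Finset.mul_sum, hs]
  have h1 : ∫⁻ z, ∑ B ∈ U, ‖sF g G z‖ₑ ^ 6 * wB M n B z ≤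
      ∫⁻ z, ENNReal.ofReal C * (‖sF (rs1 k n τ g) (G.image (sh k n τ)) (Amap n τ z)‖ₑ ^ 6 * wB M n B' (Amap n τ z)) := by
    apply lintegral_mono
    intro z
    simp only
    rw [← Finset.mul_sum]
    have e := enorm_rs1 hk g τ G hG z
    have e' : ‖sF g G z‖ₑ = ‖sF (rs1 k n τ g) (G.image (sh k n τ)) (Amap n τ z)‖ₑ := e
    rw [e']
    calc _ ≤ ‖sF (rs1 k n τ g) (G.image (sh k n τ)) (Amap n τ z)‖ₑ ^ 6 * (ENNReal.ofReal C * wB M n B' (Amap n τ z)) := by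
          gcongr
          exact H n τ B' U hτ hU z
      _ = _ := by ring
  have h2 : ∫⁻ z, ENNReal.ofReal C * (‖sF (rs1 k n τ g) (G.image (sh k n τ)) (Amap n τ z)‖ₑ ^ 6 * wB M n B' (Amap n τ z)) =
      ENNReal.ofReal C * (ENNReal.ofReal ((2:ℝ) ^ (4 * n)) * ∫⁻ z, ‖sF (rs1 k n τ g) (G.image (sh k n τ)) z‖ₑ ^ 6 * wB M n B' z) := by
    rw [lintegral_const_mul' _ _ ENNReal.ofReal_ne_top]
    congr 1
    exact lintegral_Amap n τ fun z => ‖sF (rs1 k n τ g) (G.image (sh k n τ)) z‖ₑ ^ 6 * wB M n B' z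
  calc _ ≤ ENNReal.ofReal ((2 ^ (6 * n))⁻¹) * (ENNReal.ofReal C * (ENNReal.ofReal ((2:ℝ) ^ (4 * n)) *
        ∫⁻ z, ‖sF (rs1 k n τ g) (G.image (sh k n τ)) z‖ₑ ^ 6 * wB M n B' z)) := by
        gcongr
        exact h1.trans h2.le
    _ = _ := by
        rw [ENNReal.ofReal_mul (by linarith)]
        ring

/-- **(U2)** the energy of the rescaled finest tube through `B'` -/
theorem u1_box (M k n : ℕ) (hk : 3 ≤ k) (g : Z2 → E3 → ℂ) (τ θ : Z2) (B : Fin 3 → ℤ)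
    (hθ : θ ∈ desc k n 1 τ) :
    u1 M (k - 1) n (rs1 k n τ g) (sh k n τ θ) (bx n τ B) ≤ ENNReal.ofReal (6 ^ M) * u1 M k n g θ B := by
  have hRng : Rng (k - 1) n (sh k n τ θ) := by
    intro i
    have h1 := H429.mem_desc.1 hθ i
    unfold sh
    constructor
    · linarith [h1.1]
    · have := h1.2
      have e : (2:ℤ) ^ ((k - 1) * n) * (τ i + 1) = 2 ^ ((k - 1) * n) * τ i + 2 ^ ((k - 1) * n) := by ring
      linarith
  have eshf : shf k n 1 τ (sh k n τ θ) = θ := by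
    funext i; unfold shf sh; ring
  have h1 := eT_rsp (M := M) (K := k) (n := n) (j := 1) (by omega) g (τ := τ) hRng (Ainv n τ (cB n (bx n τ B)))
  rw [eshf] at h1
  have e2 : AL (sc n 1) (slp n 1 τ) (Ainv n τ (cB n (bx n τ B))) = cB n (bx n τ B) := Amap_Ainv n τ _
  rw [e2] at h1
  have e3 : u1 M (k - 1) n (rs1 k n τ g) (sh k n τ θ) (bx n τ B) = eT M (k - 1) n (rsp k n 1 g τ) (sh k n τ θ) (cB n (bx n τ B)) := rfl
  rw [e3, ← h1]
  unfold eT u1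
  -- compare the weights
  have hD : (0:ℝ) < 2 ^ n := by positivity
  have hD1 : (1:ℝ) ≤ 2 ^ n := one_le_pow₀ (by norm_num)
  have hL : (0:ℝ) < 2 ^ (k * n) := by positivity
  have hR : (0:ℝ) < 2 ^ (2 * k * n) := by positivity
  set y : E3 := cB n B - Ainv n τ (cB n (bx n τ B)) with hy
  have hgy : gau 0 (2 ^ (k * n)) (2 ^ (k * n)) (2 ^ (2 * k * n)) (slp n k θ) y ≤ 5 := by
    obtain ⟨m, m2⟩ := bx_pos n τ B
    have hs := fun i => desc_slp (K := k) (n := n) (i := 1) (by omega) (τ := τ) (θ := θ) hθ i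
    have y2 : y 2 = 2 ^ (2 * n) * (cB n B 2 / 2 ^ (2 * n) - cB n (bx n τ B) 2) := by
      rw [hy]
      have : (cB n B - Ainv n τ (cB n (bx n τ B))) 2 = cB n B 2 - Ainv n τ (cB n (bx n τ B)) 2 := rfl
      rw [this, Ainv_two]; field_simp
    have y2a : 0 ≤ y 2 := by rw [y2]; exact mul_nonneg (by positivity) m2.1
    have y2b : y 2 ≤ 2 ^ (4 * n) := by
      rw [y2]
      calc _ ≤ (2:ℝ) ^ (2 * n) * 2 ^ (2 * n) := by gcongr; exact m2.2
        _ = 2 ^ (4 * n) := by rw [← pow_add]; congr 1; ring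
    have yi : ∀ i : Fin 2, ∀ hi : y i.castSucc - sl n τ i * y 2 = 2 ^ n * ((cB n B i.castSucc - sl n τ i * cB n B 2) / 2 ^ n - cB n (bx n τ B) i.castSucc),
        |y i.castSucc - slp n k θ i * y 2| ≤ 2 * 2 ^ (3 * n) := by
      intro i hi
      have h3 : y i.castSucc - slp n k θ i * y 2 = (y i.castSucc - sl n τ i * y 2) - (slp n k θ i - sl n τ i) * y 2 := by ring
      rw [h3, hi]
      have h4 : |slp n k θ i - sl n τ i| ≤ 1 / 2 ^ n := by
        have := hs i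
        unfold slp at this ⊢
        unfold sl
        rw [one_mul] at this
        rw [abs_of_nonneg this.1]
        exact this.2
      refine (abs_sub _ _).trans ?_
      rw [abs_mul, abs_mul, abs_of_pos hD, abs_of_nonneg (m i).1, abs_of_nonneg y2a]
      have h5 : 2 ^ n * ((cB n B i.castSucc - sl n τ i * cB n B 2) / 2 ^ n - cB n (bx n τ B) i.castSucc) ≤ 2 ^ n * 2 ^ (2 * n) := by
        gcongr; exact (m i).2
      have h6 : |slp n k θ i - sl n τ i| * y 2 ≤ 1 / 2 ^ n * 2 ^ (4 * n) := by gcongr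
      have e5 : (2:ℝ) ^ n * 2 ^ (2 * n) = 2 ^ (3 * n) := by rw [← pow_add]; congr 1; ring
      have e6 : 1 / (2:ℝ) ^ n * 2 ^ (4 * n) = 2 ^ (3 * n) := by
        have : (2:ℝ) ^ (4 * n) = 2 ^ n * 2 ^ (3 * n) := by rw [← pow_add]; congr 1; ring
        rw [this]; field_simp
      linarith
    have hsub : ∀ i, y i = cB n B i - Ainv n τ (cB n (bx n τ B)) i := fun i => rfl
    have yh0 : y (0 : Fin 2).castSucc - sl n τ 0 * y 2 = 2 ^ n * ((cB n B (0 : Fin 2).castSucc - sl n τ 0 * cB n B 2) / 2 ^ n - cB n (bx n τ B) (0 : Fin 2).castSucc) := by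
      simp only [Fin.castSucc_zero]
      rw [hsub 0, hsub 2, Ainv_zero, Ainv_two]
      unfold sl; field_simp; ring
    have yh1 : y (1 : Fin 2).castSucc - sl n τ 1 * y 2 = 2 ^ n * ((cB n B (1 : Fin 2).castSucc - sl n τ 1 * cB n B 2) / 2 ^ n - cB n (bx n τ B) (1 : Fin 2).castSucc) := by
      simp only [Fin.castSucc_one]
      rw [hsub 1, hsub 2, Ainv_one, Ainv_two]
      unfold sl; field_simp; ring
    have a0 := yi 0 yh0
    have a1 := yi 1 yh1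
    simp only [Fin.castSucc_zero, Fin.castSucc_one] at a0 a1
    have hLk : (2:ℝ) ^ (3 * n) ≤ 2 ^ (k * n) := pow_le_pow_right₀ (by norm_num) (Nat.mul_le_mul_right n hk)
    have hRk : (2:ℝ) ^ (4 * n) ≤ 2 ^ (2 * k * n) := pow_le_pow_right₀ (by norm_num) (Nat.mul_le_mul_right n (by omega))
    unfold gau
    rw [Vale.Agent.P122.AN275.fw_zero_frame, Vale.Agent.P122.AN275.fn_zero_frame]
    have d0 : dv (slp n k θ) y 0 = y 0 - slp n k θ 0 * y 2 := by simp [dv]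
    have d1 : dv (slp n k θ) y 1 = y 1 - slp n k θ 1 * y 2 := by simp [dv]
    rw [d0, d1]
    have f0 : |y 0 - slp n k θ 0 * y 2| / 2 ^ (k * n) ≤ 2 := by
      rw [div_le_iff₀ hL]; linarith
    have f1 : |y 1 - slp n k θ 1 * y 2| / 2 ^ (k * n) ≤ 2 := by
      rw [div_le_iff₀ hL]; linarith
    have f2 : |y 2| / 2 ^ (2 * k * n) ≤ 1 := by
      rw [div_le_one hR, abs_of_nonneg y2a]; linarith
    linarith
  rw [mul_left_comm]
  gcongr
  rw [← lintegral_const_mul' _ _ ENNReal.ofReal_ne_top]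
  apply lintegral_mono
  intro z
  simp only
  rw [mul_left_comm]
  gcongr
  unfold wg
  rw [← ENNReal.ofReal_mul (by positivity)]
  apply ENNReal.ofReal_le_ofReal
  set x : E3 := z - Ainv n τ (cB n (bx n τ B)) with hx
  have ex : z - cB n B = x + -y := by rw [hx, hy]; abel
  have g1 := Vale.Agent.P122.AN275.gau_add (θ := 0) hL hL hR (slp n k θ) x (-y)
  rw [Vale.Agent.P122.AN275.gau_neg] at g1
  rw [ex]
  have g2 := Vale.Agent.P122.AN275.gau_nonneg (θ := 0) hL hL hR (slp n k θ) x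
  have g3 := Vale.Agent.P122.AN275.gau_nonneg (θ := 0) hL hL hR (slp n k θ) (x + -y)
  have g4 : 1 + gau 0 (2 ^ (k * n)) (2 ^ (k * n)) (2 ^ (2 * k * n)) (slp n k θ) (x + -y) ≤
      6 * (1 + gau 0 (2 ^ (k * n)) (2 ^ (k * n)) (2 ^ (2 * k * n)) (slp n k θ) x) := by linarith
  have e7 : ((1 + gau 0 (2 ^ (k * n)) (2 ^ (k * n)) (2 ^ (2 * k * n)) (slp n k θ) x) ^ M)⁻¹ =
      6 ^ M * ((6 * (1 + gau 0 (2 ^ (k * n)) (2 ^ (k * n)) (2 ^ (2 * k * n)) (slp n k θ) x)) ^ M)⁻¹ := by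
    rw [mul_pow]; field_simp
  rw [e7]
  gcongr

end Vale.Agent.P076.H879
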