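import Vale.Agent.P076.H879.Cls

/-! # P076 / H879 : the narrow step -/

set_option autoImplicit false

open MeasureTheory Complex Set Vale.Agent.P122.C2 Vale.Agent.P122.AN Vale.Agent.P076.NS Vale.Agent.P076.H429
open scoped ENNReal NNReal FourierTransform

namespace Vale.Agent.P076.H879

theorem Dim2.mono {k n : ℕ} {Y Y' : Finset (Fin 3 → ℤ)} {γ : ℝ} (h : Dim2 k n Y γ) (hs : Y' ⊆ Y) : Dim2 k n Y' γ := by
  intro r p h1 h2
  refine le_trans ?_ (h r p h1 h2)
  exact_mod_cast Finset.card_le_card (Finset.filter_subset_filter _ hs)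

theorem Hyp.mono {C0 γ β b : ℝ} {M k n j N : ℕ} {g : Z2 → E3 → ℂ} {Y Y' : Finset (Fin 3 → ℤ)} {G : (Fin 3 → ℤ) → Finset Z2}
    (H : Hyp C0 M k n j N g Y G γ β b) (hs : Y' ⊆ Y) : Hyp C0 M k n j N g Y' G γ β b := by
  refine ⟨H.par, H.γ0, Dim2.mono H.dim hs, H.β0, H.b0, H.b1, ?_, fun B hB => H.sub B (hs hB), fun B hB => H.uni B (hs hB),
    fun B hB => H.amp B (hs hB), ?_⟩
  · intro hj p
    refine le_trans (Finset.card_le_card ?_) (H.lab hj p)
    exact Finset.image_subset_image (Finset.filter_subset_filter _ hs)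
  · rcases H.enr with h | h
    · exact Or.inl h
    · exact Or.inr fun B hB => h B (hs hB)

theorem step (hDEC : StDEC) : StSTEP := by
  intro c1 C0 c ε M N hc1 hC0 hc hε hce hM hN
  obtain ⟨CD, a, hCD, HCh⟩ := choice hDEC ε M C0 hε hM hC0
  obtain ⟨s, hs, HCl⟩ := class_bound M hM
  have hs0 : 0 < s := by linarith
  set Cc : ℝ := (3 + a) * 3 * (4 * N * 7 * (289 * s) * (16 * ((2 + a) * CD)) * (6 ^ M * (16 * s / 5) * ((2 + a) * CD)) ^ c1) with hCc
  have hCc0 : 0 < Cc := by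
    have : (0:ℝ) < N := by exact_mod_cast hN
    positivity
  refine ⟨max 1 Cc, le_max_left _ _, ?_⟩
  intro k n j A' Ab hk hj hn hA' hAb HC HB g Y G γ β b H
  classical
  set Yb := Y.filter fun B => BroadAt c M k n g (G B) β B with hYb
  set Yn := Y.filter fun B => ¬ BroadAt c M k n g (G B) β B with hYn
  have hγ := H.γ0
  have hβ := H.β0
  have hb := H.b0
  have hn1 : (1:ℝ) ≤ n := by exact_mod_cast (by omega : 1 ≤ n)
  have hn0 : (0:ℝ) < n := by linarith
  have hcard : (Y.card : ℝ) = Yb.card + Yn.card := by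
    exact_mod_cast (Finset.card_filter_add_card_filter_not (s := Y) (fun B => BroadAt c M k n g (G B) β B)).symm
  have hEb : Est c1 k n g Yb γ β b Ab := HB g Yb G γ β b (H.mono (Finset.filter_subset _ _)) fun B hB => (Finset.mem_filter.1 hB).2
  -- narrow part
  set X : ℝ := (CD * 2 ^ ((2 * c + ε) * n))⁻¹ with hX
  have hge1 : (1:ℝ) ≤ 2 ^ ((2 * c + ε) * n) := Real.one_le_rpow (by norm_num) (by positivity)
  have hX0 : 0 < X := by positivity
  have hX1 : X ≤ 1 := by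
    rw [hX]; apply inv_le_one_of_one_le₀; nlinarith
  have hch : ∀ B ∈ Yn, ∃ (i : ℕ) (T Ts : Finset Z2), Cho M k n g (G B) γ β b X ((2 + a) * n) B i T Ts := by
    intro B hB
    rw [hYn, Finset.mem_filter] at hB
    refine HCh c γ β b k n g (G B) B hc hce (by omega) (by omega) hγ hβ hb H.par (H.sub B hB.1) hB.2 ?_
    rcases H.enr with h | h
    · exact Or.inl h
    · exact Or.inr (h B hB.1)
  choose! ib T Ts hcho using hch
  set I : ℕ := (2 + a) * n with hI
  set Zf : ℕ → ℕ → Finset (Fin 3 → ℤ) := fun i l => Yn.filter fun B => ib B = i ∧ Nat.log 2 (T B).card = l with hZf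
  have hcls : ∀ i l : ℕ, ENNReal.ofReal (β ^ 2 * (Zf i l).card) ≤
      ENNReal.ofReal (4 * N * (4 * n + 3) * (289 * s) * (16 * (I / X)) * A' * (6 ^ M * (16 * s / 5) * (I / X)) ^ c1 * b ^ c1 *
        γ ^ (2 / 3 : ℝ) * 2 ^ (4 / 3 * (k * n : ℝ))) * ms k n g := by
    intro i l
    refine HCl c1 C0 A' γ β b X k n j N I i l g Y (Zf i l) G T Ts hc1 hk hj hN (by rw [hI]; nlinarith) hX0 hX1 hA' H ?_ HC
    intro B hB
    rw [hZf] at hB
    simp only [Finset.mem_filter] at hB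
    obtain ⟨hBn, hi, hl⟩ := hB
    have h1 := hcho B hBn
    rw [hi] at h1
    refine ⟨(Finset.mem_filter.1 hBn).1, h1, ?_, ?_⟩
    · rw [← hl]; exact Nat.pow_log_le_self 2 h1.ne.card_pos.ne'
    · rw [← hl]; exact Nat.lt_pow_succ_log_self (by norm_num) _
  set E : ℝ := 4 * N * (4 * n + 3) * (289 * s) * (16 * (I / X)) * A' * (6 ^ M * (16 * s / 5) * (I / X)) ^ c1 * b ^ c1 *
        γ ^ (2 / 3 : ℝ) * 2 ^ (4 / 3 * (k * n : ℝ)) with hE
  have hE0 : 0 ≤ E := by positivity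
  have hsumcard : (Yn.card : ℝ) ≤ ∑ i ∈ Finset.range (I + 1), ∑ l ∈ Finset.range (2 * n + 1), ((Zf i l).card : ℝ) := by
    have h1 : Yn ⊆ (Finset.range (I + 1)).biUnion fun i => (Finset.range (2 * n + 1)).biUnion fun l => Zf i l := by
      intro B hB
      rw [Finset.mem_biUnion]
      have h2 := hcho B hB
      refine ⟨ib B, Finset.mem_range.2 (by have := h2.iI; omega), ?_⟩
      rw [Finset.mem_biUnion]
      refine ⟨Nat.log 2 (T B).card, Finset.mem_range.2 ?_, ?_⟩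
      · have h3 : (T B).card ≤ 2 ^ (2 * n) := by
          have := Finset.card_le_card h2.sub
          rw [card_kids] at this
          rw [pow_mul]; norm_num; exact this
        have h4 : Nat.log 2 (T B).card ≤ Nat.log 2 (2 ^ (2 * n)) := Nat.log_mono_right h3
        rw [Nat.log_pow (by norm_num)] at h4
        omega
      · exact Finset.mem_filter.2 ⟨hB, rfl, rfl⟩
    have h2 := (Finset.card_le_card h1).trans Finset.card_biUnion_le
    have h3 : ∑ i ∈ Finset.range (I + 1), ((Finset.range (2 * n + 1)).biUnion fun l => Zf i l).card ≤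
        ∑ i ∈ Finset.range (I + 1), ∑ l ∈ Finset.range (2 * n + 1), (Zf i l).card :=
      Finset.sum_le_sum fun i _ => Finset.card_biUnion_le
    exact_mod_cast h2.trans h3
  have hna : ENNReal.ofReal (β ^ 2 * Yn.card) ≤ ENNReal.ofReal ((I + 1) * (2 * n + 1) * E) * ms k n g := by
    calc ENNReal.ofReal (β ^ 2 * Yn.card)
        ≤ ENNReal.ofReal (∑ i ∈ Finset.range (I + 1), ∑ l ∈ Finset.range (2 * n + 1), β ^ 2 * ((Zf i l).card : ℝ)) := by
          apply ENNReal.ofReal_le_ofReal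
          simp_rw [← Finset.mul_sum]
          gcongr
      _ = ∑ i ∈ Finset.range (I + 1), ∑ l ∈ Finset.range (2 * n + 1), ENNReal.ofReal (β ^ 2 * ((Zf i l).card : ℝ)) := by
          rw [ENNReal.ofReal_sum_of_nonneg (fun i _ => Finset.sum_nonneg fun l _ => by positivity)]
          apply Finset.sum_congr rfl; intro i _
          rw [ENNReal.ofReal_sum_of_nonneg (fun l _ => by positivity)]
      _ ≤ ∑ i ∈ Finset.range (I + 1), ∑ l ∈ Finset.range (2 * n + 1), ENNReal.ofReal E * ms k n g :=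
          Finset.sum_le_sum fun i _ => Finset.sum_le_sum fun l _ => hcls i l
      _ = _ := by
          rw [Finset.sum_const, Finset.sum_const, Finset.card_range, Finset.card_range, nsmul_eq_mul, nsmul_eq_mul,
            ← ENNReal.ofReal_natCast, ← ENNReal.ofReal_natCast, ← mul_assoc, ← mul_assoc, ← ENNReal.ofReal_mul (by positivity),
            ← ENNReal.ofReal_mul (by positivity)]
          congr 2
          push_cast
          ring
  -- the constant
  have hIX : (I:ℝ) / X ≤ (2 + a) * CD * (n * 2 ^ ((2 * c + ε) * n)) := by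
    rw [hX, div_inv_eq_mul, hI]
    push_cast
    linarith [show (2 + (a:ℝ)) * n * (CD * 2 ^ ((2 * c + ε) * n)) = (2 + a) * CD * (n * 2 ^ ((2 * c + ε) * n)) by ring]
  have hIX0 : 0 < (I:ℝ) / X := by
    have : (0:ℝ) < I := by rw [hI]; push_cast; positivity
    positivity
  have hconst : (I + 1) * (2 * n + 1) * E ≤ Cc * (n:ℝ) ^ (4 + c1) * 2 ^ ((2 * c + ε) * (1 + c1) * n) * A' * b ^ c1 *
      γ ^ (2 / 3 : ℝ) * 2 ^ (4 / 3 * (k * n : ℝ)) := by
    have h1 : (I:ℝ) + 1 ≤ (3 + a) * n := by rw [hI]; push_cast; nlinarith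
    have h2 : 2 * (n:ℝ) + 1 ≤ 3 * n := by linarith
    have h3 : 4 * (n:ℝ) + 3 ≤ 7 * n := by linarith
    have h4 : (6 ^ M * (16 * s / 5) * ((I:ℝ) / X)) ^ c1 ≤ (6 ^ M * (16 * s / 5) * ((2 + a) * CD)) ^ c1 * ((n:ℝ) ^ c1 * 2 ^ ((2 * c + ε) * c1 * n)) := by
      calc _ ≤ (6 ^ M * (16 * s / 5) * ((2 + a) * CD * (n * 2 ^ ((2 * c + ε) * n)))) ^ c1 := by
            apply Real.rpow_le_rpow (by positivity) _ hc1
            gcongr
        _ = ((6 ^ M * (16 * s / 5) * ((2 + a) * CD)) * (n * 2 ^ ((2 * c + ε) * n))) ^ c1 := by ring_nf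
        _ = _ := by
            rw [Real.mul_rpow (by positivity) (by positivity), Real.mul_rpow hn0.le (by positivity), ← Real.rpow_mul (by norm_num)]
            congr 3
            ring
    have h5 : (n:ℝ) ^ (4 + c1) = n ^ 4 * n ^ c1 := by
      rw [Real.rpow_add hn0]; norm_cast
    have h6 : (2:ℝ) ^ ((2 * c + ε) * (1 + c1) * n) = 2 ^ ((2 * c + ε) * n) * 2 ^ ((2 * c + ε) * c1 * n) := by
      rw [← Real.rpow_add (by norm_num)]; congr 1; ring
    rw [hE, h5, h6, hCc]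
    calc _ ≤ ((3 + a) * n) * (3 * n) * (4 * N * (7 * n) * (289 * s) * (16 * ((2 + a) * CD * (n * 2 ^ ((2 * c + ε) * n)))) * A' *
        ((6 ^ M * (16 * s / 5) * ((2 + a) * CD)) ^ c1 * ((n:ℝ) ^ c1 * 2 ^ ((2 * c + ε) * c1 * n))) * b ^ c1 *
        γ ^ (2 / 3 : ℝ) * 2 ^ (4 / 3 * (k * n : ℝ))) := by gcongr
      _ = _ := by ring
  unfold Est at hEb ⊢
  rw [hcard, mul_add, ENNReal.ofReal_add (by positivity) (by positivity)]
  refine (add_le_add hEb (hna.trans (mul_le_mul_left (ENNReal.ofReal_le_ofReal hconst) _))).trans ?_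
  rw [← add_mul, ← ENNReal.ofReal_add (by positivity) (by positivity)]
  gcongr
  have h7 : Cc * (n:ℝ) ^ (4 + c1) * 2 ^ ((2 * c + ε) * (1 + c1) * n) * A' * b ^ c1 * γ ^ (2 / 3 : ℝ) * 2 ^ (4 / 3 * (k * n : ℝ)) ≤
      max 1 Cc * (n:ℝ) ^ (4 + c1) * 2 ^ ((2 * c + ε) * (1 + c1) * n) * A' * b ^ c1 * γ ^ (2 / 3 : ℝ) * 2 ^ (4 / 3 * (k * n : ℝ)) := by
    gcongr
    exact le_max_right _ _
  calc _ ≤ Ab * b ^ c1 * γ ^ (2 / 3 : ℝ) * 2 ^ (4 / 3 * (k * n : ℝ)) +
      max 1 Cc * (n:ℝ) ^ (4 + c1) * 2 ^ ((2 * c + ε) * (1 + c1) * n) * A' * b ^ c1 * γ ^ (2 / 3 : ℝ) * 2 ^ (4 / 3 * (k * n : ℝ)) :=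
        add_le_add le_rfl h7
    _ = _ := by ring

end Vale.Agent.P076.H879
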