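import Vale.Agent.P076.H879.ScR
import Vale.Agent.P076.H879.Cnt
import Vale.Agent.P076.H879.Step
import Vale.Agent.P076.H322.STDefs

/-! # P076 / H879 : [SC] one single cap of level `j` at every cube: gain `D ^ (- j / 3)` (`γ ≤ C0`) -/

set_option autoImplicit false

open MeasureTheory Complex Set Vale.Agent.P122.C2 Vale.Agent.P122.AN Vale.Agent.P076.NS Vale.Agent.P076.H429
open scoped ENNReal NNReal FourierTransform

namespace Vale.Agent.P076.H879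

/-- [SC], for `γ ≤ C0` -/
def StSCb : Prop := ∃ C1 : ℝ, ∀ j : ℕ, ∃ K0 : ℕ, ∀ K : ℕ, K0 ≤ K → ∃ M0 : ℕ, ∀ M : ℕ, M0 ≤ M → ∀ C0 : ℝ, 1 ≤ C0 →
  ∃ C : ℝ, 0 ≤ C ∧ ∀ (n : ℕ) (g : Z2 → E3 → ℂ) (Y : Finset (Fin 3 → ℤ)) (γ β : ℝ), 1 ≤ n → Par C0 K n g → 0 < γ → γ ≤ C0 →
    Dim2 K n Y γ → 0 < β →
    (∀ B ∈ Y, ∃ τ : Z2, Cap n j τ ∧ ENNReal.ofReal (β ^ 6) ≤ b6 M n B (pie K n g j τ)) →
    ENNReal.ofReal (β ^ 2 * Y.card) ≤
      ENNReal.ofReal (C * 2 ^ ((C1 - j / 3) * n) * γ ^ (2 / 3 : ℝ) * 2 ^ (4 / 3 * (K * n : ℝ))) * ms K n g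

/-- one cap, one dyadic class -/
theorem sc_key (M : ℕ) (hM : 4 ≤ M) (C0 : ℝ) (hC0 : 1 ≤ C0) : ∃ s : ℝ, 1 ≤ s ∧ ∀ (c1 C1 C γ β : ℝ) (K n j q : ℕ) (g : Z2 → E3 → ℂ)
    (Y Y' : Finset (Fin 3 → ℤ)) (W : (Fin 3 → ℤ) → Finset (Fin 3 → ℤ)) (τ : Z2), j + 2 ≤ K → 0 ≤ C →
    Par C0 K n g → 0 < γ → γ ≤ C0 → Dim2 K n Y γ → 0 < β → Cap n j τ →
    (∀ B' ∈ Y', 2 ^ q ≤ (W B').card ∧ ∀ B ∈ W B', B ∈ Y ∧ bx (j * n) τ B = B') →
    (∀ B' ∈ Y', ∀ B ∈ W B', ENNReal.ofReal (β ^ 6) ≤ b6 (M + 4) n B (pie K n g j τ)) →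
    Claim c1 C0 M (K - j) n 0 27 (C * 2 ^ (C1 * n)) →
    ENNReal.ofReal (2 ^ q * β ^ 2 * Y'.card) ≤
      ENNReal.ofReal (4913 * s * C0 * C * 2 ^ (C1 * n) * 2 ^ (10 / 3 * (n:ℝ)) * 2 ^ (5 / 3 * (j * n : ℝ)) * γ ^ (2 / 3 : ℝ) *
        2 ^ (4 / 3 * (K * n : ℝ))) * ms (K - j) n (rsp K n j g τ) := by
  obtain ⟨Cu, hCu, HU⟩ := b6_unit M hM C0 hC0
  refine ⟨Cu ^ (1 / 3 : ℝ), Real.one_le_rpow hCu (by norm_num), ?_⟩
  intro c1 C1 C γ β K n j q g Y Y' W τ hj hC hg hγ hγC hY hβ hτ hW hamp HC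
  rcases Y'.eq_empty_or_nonempty with hYe | ⟨B0', hB0'⟩
  · rw [hYe]; simp
  have hjK : j ≤ K := by omega
  set s : ℝ := Cu ^ (1 / 3 : ℝ) with hs
  have hs0 : 0 < s := by positivity
  set x : ℝ := (2 ^ q : ℝ) ^ (1 / 3 : ℝ) with hx
  set y : ℝ := (2 ^ n : ℝ) ^ (1 / 3 : ℝ) with hy
  set w : ℝ := (2 ^ (j * n) : ℝ) ^ (1 / 3 : ℝ) with hw
  have hx0 : 0 < x := by positivity
  have hy0 : 0 < y := by positivity
  have hw0 : 0 < w := by positivity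
  have hx3 : x ^ 3 = 2 ^ q := by
    rw [hx, ← Real.rpow_natCast, ← Real.rpow_mul (by positivity)]; norm_num
  have hy3 : y ^ 3 = 2 ^ n := by
    rw [hy, ← Real.rpow_natCast, ← Real.rpow_mul (by positivity)]; norm_num
  have hw3 : w ^ 3 = 2 ^ (j * n) := by
    rw [hw, ← Real.rpow_natCast, ← Real.rpow_mul (by positivity)]; norm_num
  have hs3 : s ^ 3 = Cu := by
    rw [hs, ← Real.rpow_natCast, ← Real.rpow_mul (by positivity)]; norm_num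
  have ey6 : (2:ℝ) ^ (6 * n) = y ^ 18 := by rw [mul_comm, pow_mul, ← hy3]; ring
  have ew9 : (2:ℝ) ^ (3 * (j * n)) = w ^ 9 := by rw [mul_comm, pow_mul, ← hw3]; ring
  have ey10 : (2:ℝ) ^ (10 / 3 * (n:ℝ)) = y ^ 10 := by
    rw [hy, ← Real.rpow_natCast, ← Real.rpow_mul (by positivity), ← Real.rpow_natCast, ← Real.rpow_mul (by norm_num)]
    congr 1; push_cast; ring
  have ew5 : (2:ℝ) ^ (5 / 3 * (j * n : ℝ)) = w ^ 5 := by
    rw [hw, ← Real.rpow_natCast, ← Real.rpow_mul (by positivity), ← Real.rpow_natCast, ← Real.rpow_mul (by norm_num)]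
    congr 1; push_cast; ring
  -- the size of the class
  have hxb : x ≤ 17 * C0 * w ^ 3 * y ^ 4 := by
    have h1 := card_boxj K n j hj τ hτ Y (W B0') γ hγ hY B0' (hW B0' hB0').2
    have h2 : (2:ℝ) ^ q ≤ (W B0').card := by exact_mod_cast (hW B0' hB0').1
    have e : (2:ℝ) ^ (3 * (j * n) + 4 * n) = w ^ 9 * y ^ 12 := by
      rw [pow_add, ew9]
      have : (2:ℝ) ^ (4 * n) = y ^ 12 := by rw [mul_comm, pow_mul, ← hy3]; ring
      rw [this]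
    rw [e] at h1
    have h3 : x ^ 3 ≤ (17 * C0 * w ^ 3 * y ^ 4) ^ 3 := by
      rw [hx3]
      have hC3 : C0 ≤ C0 ^ 3 := by nlinarith [sq_nonneg C0, mul_nonneg (by linarith : (0:ℝ) ≤ C0 - 1) (by positivity : (0:ℝ) ≤ C0 ^ 2)]
      calc (2:ℝ) ^ q ≤ 4913 * γ * (w ^ 9 * y ^ 12) := h2.trans h1
        _ ≤ 4913 * C0 ^ 3 * (w ^ 9 * y ^ 12) := by gcongr; linarith
        _ = (17 * C0 * w ^ 3 * y ^ 4) ^ 3 := by ring
    exact le_of_pow_le_pow_left₀ (by norm_num) (by positivity) h3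
  -- new data
  set β' : ℝ := (1 / (s * y ^ 6)) ^ (1 / 2 : ℝ) * β with hβ'
  set γ' : ℝ := 4913 * 2 ^ (3 * (j * n)) / 2 ^ q * γ with hγ'
  have hβ'0 : 0 < β' := by positivity
  have hγ'0 : 0 < γ' := by positivity
  have hβ'2 : β' ^ 2 = 1 / (s * y ^ 6) * β ^ 2 := by
    rw [hβ', mul_pow, ← Real.rpow_natCast, ← Real.rpow_mul (by positivity)]
    norm_num
  have hβ'6 : β' ^ 6 = 1 / (Cu * 2 ^ (6 * n)) * β ^ 6 := by
    have : β' ^ 6 = (β' ^ 2) ^ 3 := by ring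
    rw [this, hβ'2, mul_pow, div_pow, mul_pow, hs3, ey6]
    ring
  have hne : ∀ B' ∈ Y', (W B').Nonempty := by
    intro B' hB'
    have h1 := (hW B' hB').1
    have h2 : 0 < 2 ^ q := by positivity
    exact Finset.card_pos.1 (lt_of_lt_of_le h2 h1)
  have HYP : Hyp C0 M (K - j) n 0 27 (rsp K n j g τ) Y' (fun _ => desc (K - j) n 0 0) γ' β' 1 := by
    refine ⟨Par_rsp hg hjK τ, hγ'0, dim_boxj K n j q (by omega) τ hτ Y Y' γ hγ hY W hW, hβ'0, one_pos, le_rfl, ?_, fun _ _ => subset_rfl,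
      fun _ _ _ _ θ' h _ => h, ?_, Or.inl rfl⟩
    · intro h; omega
    · intro B' hB'
      obtain ⟨B, hB⟩ := hne B' hB'
      have hbx := ((hW B' hB').2 B hB).2
      have h1 := (hamp B' hB' B hB).trans (HU K n j g τ B hjK hg hτ)
      rw [hbx] at h1
      have e : β ^ 6 = (Cu * 2 ^ (6 * n)) * β' ^ 6 := by rw [hβ'6]; field_simp
      rw [e, ENNReal.ofReal_mul (by positivity)] at h1
      exact (ENNReal.mul_le_mul_iff_right (by
        rw [Ne, ENNReal.ofReal_eq_zero, not_le]; positivity) ENNReal.ofReal_ne_top).1 h1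
  have hE := HC _ _ _ _ _ _ HYP
  unfold Est at hE
  rw [Real.one_rpow, mul_one] at hE
  have e1 : 2 ^ q * β ^ 2 * (Y'.card : ℝ) = (x ^ 3 * s * y ^ 6) * (β' ^ 2 * Y'.card) := by
    rw [hβ'2, ← hx3]; field_simp
  have e2 : γ' ^ (2 / 3 : ℝ) = 289 * w ^ 6 / x ^ 2 * γ ^ (2 / 3 : ℝ) := by
    rw [hγ', ← hx3, ew9, Real.mul_rpow (by positivity) (by positivity)]
    congr 1
    have : 4913 * w ^ 9 / x ^ 3 = (17 * w ^ 3 / x) ^ (3:ℝ) := by
      rw [show (3:ℝ) = ((3:ℕ):ℝ) by norm_num, Real.rpow_natCast, div_pow, mul_pow]; norm_num; ring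
    rw [this, ← Real.rpow_mul (by positivity)]
    norm_num
    ring
  have e3 : (2:ℝ) ^ (4 / 3 * (K * n : ℝ)) = 2 ^ (4 / 3 * (((K - j : ℕ) : ℝ) * n)) * w ^ 4 := by
    have h1 : (((K - j : ℕ)) : ℝ) = K - j := by rw [Nat.cast_sub (by omega)]
    have h2 : w ^ 4 = 2 ^ (4 / 3 * (j * n : ℝ)) := by
      rw [hw, ← Real.rpow_natCast, ← Real.rpow_mul (by positivity), ← Real.rpow_natCast, ← Real.rpow_mul (by norm_num)]
      congr 1; push_cast; ring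
    rw [h1, h2, ← Real.rpow_add (by norm_num)]
    congr 1; ring
  rw [e1, ENNReal.ofReal_mul (by positivity)]
  calc _ ≤ ENNReal.ofReal (x ^ 3 * s * y ^ 6) *
        (ENNReal.ofReal (C * 2 ^ (C1 * n) * γ' ^ (2 / 3 : ℝ) * 2 ^ (4 / 3 * (((K - j : ℕ) : ℝ) * n))) * ms (K - j) n (rsp K n j g τ)) := by
        gcongr
    _ = ENNReal.ofReal (x * (289 * s * y ^ 6 * (C * 2 ^ (C1 * n)) * w ^ 6 * γ ^ (2 / 3 : ℝ) * 2 ^ (4 / 3 * (((K - j : ℕ) : ℝ) * n)))) *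
        ms (K - j) n (rsp K n j g τ) := by
        rw [← mul_assoc, ← ENNReal.ofReal_mul (by positivity)]
        congr 2
        rw [e2]
        field_simp
    _ ≤ _ := by
        refine mul_le_mul' (ENNReal.ofReal_le_ofReal ?_) le_rfl
        rw [e3, ey10, ew5]
        calc x * (289 * s * y ^ 6 * (C * 2 ^ (C1 * n)) * w ^ 6 * γ ^ (2 / 3 : ℝ) * 2 ^ (4 / 3 * (((K - j : ℕ) : ℝ) * n)))
            ≤ (17 * C0 * w ^ 3 * y ^ 4) * (289 * s * y ^ 6 * (C * 2 ^ (C1 * n)) * w ^ 6 * γ ^ (2 / 3 : ℝ) * 2 ^ (4 / 3 * (((K - j : ℕ) : ℝ) * n))) := by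
              gcongr
          _ = _ := by ring

theorem sc_of (hK : H322.StKPG) : StSCb := by
  obtain ⟨C1, c1, hc1, H⟩ := hK
  refine ⟨C1 + 10 / 3 + 1, ?_⟩
  intro j
  obtain ⟨Ka, hKa⟩ := H 0
  refine ⟨Ka + j + 2, ?_⟩
  intro K hKK
  obtain ⟨Ma, hMa⟩ := hKa (K - j) (by omega)
  refine ⟨max Ma 4 + 4, ?_⟩
  intro M' hM'
  obtain ⟨M, rfl⟩ : ∃ M, M' = M + 4 := ⟨M' - 4, by omega⟩
  have hM4 : 4 ≤ M := by omega
  have hMM : Ma ≤ M := by omega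
  intro C0 hC0
  obtain ⟨C, hC, HCl⟩ := hMa M hMM C0 hC0
  obtain ⟨s, hs, HS⟩ := sc_key M hM4 C0 hC0
  obtain ⟨a, ha⟩ : ∃ a : ℕ, 4913 * C0 ≤ 2 ^ a := by
    obtain ⟨a, ha⟩ := pow_unbounded_of_one_lt (4913 * C0) (by norm_num : (1:ℝ) < 2)
    exact ⟨a, ha.le⟩
  have hs0 : 0 < s := by linarith
  have hC00 : 0 < C0 := by linarith
  refine ⟨2 * (a + (3 * j + 4) + 1) * (4913 * s * C0 * C), by positivity, ?_⟩
  intro n g Y γ β hn hg hγ hγC hY hβ hcap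
  classical
  choose! tc hcapt hamp using hcap
  have hn1 : (1:ℝ) ≤ n := by exact_mod_cast hn
  -- counting
  have hT : ∀ B ∈ Y, ({tc B} : Finset Z2) ⊆ desc j n 0 0 := by
    intro B hB
    rw [Finset.singleton_subset_iff, mem_capsJ]
    exact hcapt B hB
  set Q : ℕ := a + (3 * j + 4) * n + 1 with hQd
  have hQ : ∀ τ ∈ desc j n 0 0, ∀ B', ∀ U : Finset (Fin 3 → ℤ), (∀ B ∈ U, B ∈ Y ∧ τ ∈ ({tc B} : Finset Z2) ∧ bx (j * n) τ B = B') →
      U.card < 2 ^ Q := by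
    intro τ hτ B' U hU
    rw [mem_capsJ] at hτ
    have h1 := card_boxj K n j (by omega) τ hτ Y U γ hγ hY B' fun B hB => ⟨(hU B hB).1, (hU B hB).2.2⟩
    have h2 : ((U.card : ℕ) : ℝ) < 2 ^ Q := by
      refine lt_of_le_of_lt h1 ?_
      have e : (2:ℝ) ^ Q = 2 * (2 ^ a * 2 ^ (3 * (j * n) + 4 * n)) := by
        rw [hQd, ← pow_add, ← pow_succ']; congr 1; ring
      rw [e]
      have hp : (0:ℝ) < 2 ^ (3 * (j * n) + 4 * n) := by positivity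
      have h3 : 4913 * γ * 2 ^ (3 * (j * n) + 4 * n) ≤ 2 ^ a * 2 ^ (3 * (j * n) + 4 * n) := by
        gcongr
        refine le_trans ?_ ha
        gcongr
      have h4 : (0:ℝ) < 2 ^ a * 2 ^ (3 * (j * n) + 4 * n) := by positivity
      linarith
    exact_mod_cast h2
  obtain ⟨lam, hcount⟩ := count (desc j n 0 0) Y (fun B => ({tc B} : Finset Z2)) (bx (j * n)) (fun _ _ => ()) 1 Q hT (by
    intro τ _ B' V _
    exact (Finset.card_le_univ V).trans (by simp)) hQ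
  have hYc : (Y.card : ℝ) ≤ ∑ q ∈ Finset.range Q, ∑ τ ∈ desc j n 0 0, (2:ℝ) ^ (q + 1) *
      ((cls Y (fun B => ({tc B} : Finset Z2)) (bx (j * n)) (fun _ _ => ()) lam τ q).card : ℝ) := by
    have h1 : (∑ B ∈ Y, ({tc B} : Finset Z2).card : ℕ) = Y.card := by simp
    rw [h1] at hcount
    simpa using hcount
  set E : ℝ := 4913 * s * C0 * C * 2 ^ (C1 * n) * 2 ^ (10 / 3 * (n:ℝ)) * 2 ^ (5 / 3 * (j * n : ℝ)) * γ ^ (2 / 3 : ℝ) *
        2 ^ (4 / 3 * (K * n : ℝ)) with hE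
  have hE0 : 0 ≤ E := by positivity
  have hkey : ∀ τ ∈ desc j n 0 0, ∀ q : ℕ, ENNReal.ofReal (2 ^ q * β ^ 2 *
      ((cls Y (fun B => ({tc B} : Finset Z2)) (bx (j * n)) (fun _ _ => ()) lam τ q).card : ℝ)) ≤
      ENNReal.ofReal E * ms (K - j) n (rsp K n j g τ) := by
    intro τ hτ q
    rw [mem_capsJ] at hτ
    refine HS c1 C1 C γ β K n j q g Y _ (grp Y (fun B => ({tc B} : Finset Z2)) (bx (j * n)) (fun _ _ => ()) lam τ) τ (by omega) hC hg hγ hγC hY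
      hβ hτ ?_ ?_ (HCl n hn)
    · intro B' hB'
      refine ⟨mem_cls hB', fun B hB => ?_⟩
      obtain ⟨h1, h2, h3, _⟩ := mem_grp hB
      exact ⟨h1, h3⟩
    · intro B' _ B hB
      obtain ⟨h1, h2, h3, _⟩ := mem_grp hB
      rw [Finset.mem_singleton] at h2
      rw [h2]
      exact hamp B h1
  have hsum : ∀ q : ℕ, ∑ τ ∈ desc j n 0 0, ENNReal.ofReal (2 ^ q * β ^ 2 *
      ((cls Y (fun B => ({tc B} : Finset Z2)) (bx (j * n)) (fun _ _ => ()) lam τ q).card : ℝ)) ≤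
      ENNReal.ofReal (E / 2 ^ (2 * j * n)) * ms K n g := by
    intro q
    calc _ ≤ ∑ τ ∈ desc j n 0 0, ENNReal.ofReal E * ms (K - j) n (rsp K n j g τ) := Finset.sum_le_sum fun τ hτ => hkey τ hτ q
      _ = ENNReal.ofReal E * (ENNReal.ofReal (((2:ℝ) ^ (2 * j * n))⁻¹) * ms K n g) := by
          rw [← Finset.mul_sum, sum_msJ (by omega) g]
      _ = _ := by
          rw [← mul_assoc, ← ENNReal.ofReal_mul hE0]
          congr 2
  calc ENNReal.ofReal (β ^ 2 * Y.card)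
      ≤ ENNReal.ofReal (∑ q ∈ Finset.range Q, ∑ τ ∈ desc j n 0 0,
          2 * (2 ^ q * β ^ 2 * ((cls Y (fun B => ({tc B} : Finset Z2)) (bx (j * n)) (fun _ _ => ()) lam τ q).card : ℝ))) := by
        apply ENNReal.ofReal_le_ofReal
        have h1 := mul_le_mul_of_nonneg_left hYc (by positivity : (0:ℝ) ≤ β ^ 2)
        refine h1.trans (le_of_eq ?_)
        rw [Finset.mul_sum]
        apply Finset.sum_congr rfl; intro q _
        rw [Finset.mul_sum]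
        apply Finset.sum_congr rfl; intro τ _
        rw [pow_succ]; ring
    _ = ENNReal.ofReal 2 * ∑ q ∈ Finset.range Q, ∑ τ ∈ desc j n 0 0,
          ENNReal.ofReal (2 ^ q * β ^ 2 * ((cls Y (fun B => ({tc B} : Finset Z2)) (bx (j * n)) (fun _ _ => ()) lam τ q).card : ℝ)) := by
        rw [ENNReal.ofReal_sum_of_nonneg (fun q _ => Finset.sum_nonneg fun τ _ => by positivity), Finset.mul_sum]
        apply Finset.sum_congr rfl; intro q _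
        rw [ENNReal.ofReal_sum_of_nonneg (fun τ _ => by positivity), Finset.mul_sum]
        apply Finset.sum_congr rfl; intro τ _
        rw [ENNReal.ofReal_mul (by positivity)]
    _ ≤ ENNReal.ofReal 2 * ∑ q ∈ Finset.range Q, ENNReal.ofReal (E / 2 ^ (2 * j * n)) * ms K n g := by
        gcongr
        exact hsum _
    _ = ENNReal.ofReal (2 * Q * (E / 2 ^ (2 * j * n))) * ms K n g := by
        rw [Finset.sum_const, Finset.card_range, nsmul_eq_mul, ← ENNReal.ofReal_natCast, ← mul_assoc, ← mul_assoc,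
          ← ENNReal.ofReal_mul (by positivity), ← ENNReal.ofReal_mul (by positivity)]
    _ ≤ _ := by
        refine mul_le_mul' (ENNReal.ofReal_le_ofReal ?_) le_rfl
        have hQ1 : (Q:ℝ) ≤ (a + (3 * j + 4) + 1) * 2 ^ (n:ℝ) := by
          have h1 : (n:ℝ) ≤ 2 ^ (n:ℝ) := by
            rw [Real.rpow_natCast]
            exact_mod_cast (Nat.lt_two_pow_self (n := n)).le
          have h2 : (1:ℝ) ≤ 2 ^ (n:ℝ) := by linarith
          rw [hQd]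
          push_cast
          have ha0 : (0:ℝ) ≤ a := Nat.cast_nonneg a
          have hj0 : (0:ℝ) ≤ 3 * j + 4 := by positivity
          nlinarith
        have hdiv : (2:ℝ) ^ (5 / 3 * (j * n : ℝ)) / 2 ^ (2 * j * n) = 2 ^ (-(j / 3 * n : ℝ)) := by
          rw [← Real.rpow_natCast 2 (2 * j * n), ← Real.rpow_sub (by norm_num)]
          congr 1; push_cast; ring
        have hexp : (2:ℝ) ^ ((C1 + 10 / 3 + 1 - j / 3) * n) = 2 ^ (n:ℝ) * 2 ^ (C1 * n) * 2 ^ (10 / 3 * (n:ℝ)) * 2 ^ (-(j / 3 * n : ℝ)) := by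
          rw [← Real.rpow_add (by norm_num), ← Real.rpow_add (by norm_num), ← Real.rpow_add (by norm_num)]
          congr 1; ring
        rw [hexp, ← hdiv, hE]
        calc 2 * (Q:ℝ) * (4913 * s * C0 * C * 2 ^ (C1 * n) * 2 ^ (10 / 3 * (n:ℝ)) * 2 ^ (5 / 3 * (j * n : ℝ)) * γ ^ (2 / 3 : ℝ) *
              2 ^ (4 / 3 * (K * n : ℝ)) / 2 ^ (2 * j * n))
            ≤ 2 * ((a + (3 * j + 4) + 1) * 2 ^ (n:ℝ)) * (4913 * s * C0 * C * 2 ^ (C1 * n) * 2 ^ (10 / 3 * (n:ℝ)) * 2 ^ (5 / 3 * (j * n : ℝ)) *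
              γ ^ (2 / 3 : ℝ) * 2 ^ (4 / 3 * (K * n : ℝ)) / 2 ^ (2 * j * n)) := by gcongr
          _ = _ := by ring

end Vale.Agent.P076.H879
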