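import Vale.Agent.P076.H879.Geo

/-! # P076 / H879 : geometry of the boxes of a cap of level `j` (`m = j n`) -/

set_option autoImplicit false

open MeasureTheory Complex Set Vale.Agent.P122.C2 Vale.Agent.P122.AN Vale.Agent.P076.NS
open scoped ENNReal NNReal FourierTransform

namespace Vale.Agent.P076.H879

/-- position of the cube `B` in the box of `bx m τ B`, in the new coordinates -/
theorem bxj_pos (n m : ℕ) (τ : Z2) (B : Fin 3 → ℤ) :
    (∀ i : Fin 2, 0 ≤ (cB n B i.castSucc - sl m τ i * cB n B 2) / 2 ^ m - cB n (bx m τ B) i.castSucc ∧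
      (cB n B i.castSucc - sl m τ i * cB n B 2) / 2 ^ m - cB n (bx m τ B) i.castSucc ≤ 2 ^ (2 * n)) ∧
    0 ≤ cB n B 2 / 2 ^ (2 * m) - cB n (bx m τ B) 2 ∧ cB n B 2 / 2 ^ (2 * m) - cB n (bx m τ B) 2 ≤ 2 ^ (2 * n) := by
  obtain ⟨mm, m2⟩ := bx_mem m τ B
  have hp : (0:ℝ) < 2 ^ (2 * n) := by positivity
  constructor
  · intro i
    have mi := mm i
    have e : (cB n B i.castSucc - sl m τ i * cB n B 2) / 2 ^ m - cB n (bx m τ B) i.castSucc =
        2 ^ (2 * n) * (((B i.castSucc : ℝ) - (τ i : ℝ) / 2 ^ m * B 2) / 2 ^ m - bx m τ B i.castSucc) := by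
      rw [cBi, cBi, cBi]; unfold sl; ring
    rw [e]
    exact ⟨mul_nonneg hp.le mi.1, mul_le_of_le_one_right hp.le mi.2.le⟩
  · have e : cB n B 2 / 2 ^ (2 * m) - cB n (bx m τ B) 2 = 2 ^ (2 * n) * ((B 2 : ℝ) / 2 ^ (2 * m) - bx m τ B 2) := by
      rw [cB2, cB2]; ring
    rw [e]
    exact ⟨mul_nonneg hp.le m2.1, mul_le_of_le_one_right hp.le m2.2.le⟩

/-- localisation: new coordinates of a cube of a box which meets a ball -/
theorem locj (n m : ℕ) (τ : Z2) (B : Fin 3 → ℤ) (p' : E3) (r' : ℝ) (hr : (2:ℝ) ^ (2 * n) ≤ r')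
    (h : dist (cB n (bx m τ B)) p' ≤ r') :
    (∀ i : Fin 2, |(cB n B i.castSucc - sl m τ i * cB n B 2) / 2 ^ m - p' i.castSucc| ≤ 2 * r') ∧
    |cB n B 2 / 2 ^ (2 * m) - p' 2| ≤ 2 * r' := by
  obtain ⟨mm, m2⟩ := bxj_pos n m τ B
  constructor
  · intro i
    have mi := mm i
    have h1 := (abs_le_dist (cB n (bx m τ B)) p' i.castSucc).trans h
    have e : (cB n B i.castSucc - sl m τ i * cB n B 2) / 2 ^ m - p' i.castSucc =
      ((cB n B i.castSucc - sl m τ i * cB n B 2) / 2 ^ m - cB n (bx m τ B) i.castSucc) + (cB n (bx m τ B) i.castSucc - p' i.castSucc) := by ring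
    rw [e]
    refine (abs_add_le _ _).trans ?_
    rw [abs_of_nonneg mi.1]
    linarith [mi.2]
  · have h1 := (abs_le_dist (cB n (bx m τ B)) p' 2).trans h
    have e : cB n B 2 / 2 ^ (2 * m) - p' 2 = (cB n B 2 / 2 ^ (2 * m) - cB n (bx m τ B) 2) + (cB n (bx m τ B) 2 - p' 2) := by ring
    rw [e]
    refine (abs_add_le _ _).trans ?_
    rw [abs_of_nonneg m2.1]
    linarith [m2.2]

/-- the covering lemma: number of cubes of `Y` in a long box -/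
theorem cover (k n m : ℕ) (τ : Z2) (hτ : ∀ i, 0 ≤ τ i ∧ τ i < 2 ^ m) (Y U : Finset (Fin 3 → ℤ)) (γ : ℝ) (hγ : 0 < γ)
    (hY : Dim2 k n Y γ) (p' : E3) (r' : ℝ) (hr0 : 0 < r') (hr5 : (2:ℝ) ^ (2 * n) ≤ 2 ^ m * r') (hR : 2 ^ m * r' ≤ 2 ^ (2 * k * n))
    (hU : ∀ B ∈ U, B ∈ Y ∧ (∀ i : Fin 2, |(cB n B i.castSucc - sl m τ i * cB n B 2) / 2 ^ m - p' i.castSucc| ≤ 2 * r') ∧
      |cB n B 2 / 2 ^ (2 * m) - p' 2| ≤ 2 * r') :
    (U.card : ℝ) ≤ 4913 * 2 ^ m * (γ * (2 ^ m * r') ^ 2) := by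
  classical
  have hD : (0:ℝ) < 2 ^ m := by positivity
  have hD1 : (1:ℝ) ≤ 2 ^ m := one_le_pow₀ (by norm_num)
  have hD2 : (2:ℝ) ^ (2 * m) = 2 ^ m * 2 ^ m := by rw [two_mul, pow_add]
  set h : ℝ := 2 ^ m * r' / 4 with hh
  have hh0 : 0 < h := by positivity
  -- discretisation
  have disc : ∀ (m : ℕ) (u : ℝ), |u| ≤ m * h → ∃ l < 2 * m + 1, |u - (l * h - m * h)| ≤ h := by
    intro m u hu
    rw [abs_le] at hu
    set y : ℝ := (u + m * h) / h with hy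
    have hy0 : 0 ≤ y := div_nonneg (by linarith [hu.1]) hh0.le
    have hy1 : y ≤ 2 * m := by rw [hy, div_le_iff₀ hh0]; linarith [hu.2]
    refine ⟨⌊y⌋₊, ?_, ?_⟩
    · have h1 : ((⌊y⌋₊ : ℕ) : ℝ) ≤ 2 * m := (Nat.floor_le hy0).trans hy1
      have : ⌊y⌋₊ ≤ 2 * m := by exact_mod_cast h1
      omega
    · have h1 := Nat.floor_le hy0
      have h2 := Nat.lt_floor_add_one y
      have ey : u = y * h - m * h := by rw [hy]; field_simp; ring
      have e : u - (⌊y⌋₊ * h - m * h) = (y - ⌊y⌋₊) * h := by rw [ey]; ring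
      rw [e, abs_of_nonneg (mul_nonneg (by linarith) hh0.le)]
      exact mul_le_of_le_one_left hh0.le (by linarith)
  -- centres
  let t : ℕ → ℝ := fun l => 2 ^ (2 * m) * p' 2 + (l * h - (8 * 2 ^ m : ℕ) * h)
  let c : ℕ × ℕ × ℕ → E3 := fun l => !₂[2 ^ m * p' 0 + sl m τ 0 * t l.1 + (l.2.1 * h - (8:ℕ) * h),
    2 ^ m * p' 1 + sl m τ 1 * t l.1 + (l.2.2 * h - (8:ℕ) * h), t l.1]
  set IX : Finset (ℕ × ℕ × ℕ) := Finset.range (2 * (8 * 2 ^ m) + 1) ×ˢ (Finset.range (2 * 8 + 1) ×ˢ Finset.range (2 * 8 + 1)) with hIX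
  have hcov : U ⊆ IX.biUnion fun l => Y.filter fun B => dist (cB n B) (c l) ≤ 2 ^ m * r' := by
    intro B hB
    obtain ⟨hBY, mm, m2⟩ := hU B hB
    have t2 : |cB n B 2 - 2 ^ (2 * m) * p' 2| ≤ (8 * 2 ^ m : ℕ) * h := by
      have e : cB n B 2 - 2 ^ (2 * m) * p' 2 = 2 ^ (2 * m) * (cB n B 2 / 2 ^ (2 * m) - p' 2) := by field_simp
      rw [e, abs_mul, abs_of_pos (by positivity : (0:ℝ) < 2 ^ (2 * m))]
      calc _ ≤ 2 ^ (2 * m) * (2 * r') := by gcongr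
        _ = _ := by push_cast; rw [hh, hD2]; ring
    have ui : ∀ i : Fin 2, |cB n B i.castSucc - sl m τ i * cB n B 2 - 2 ^ m * p' i.castSucc| ≤ (8:ℕ) * h := by
      intro i
      have e : cB n B i.castSucc - sl m τ i * cB n B 2 - 2 ^ m * p' i.castSucc =
        2 ^ m * ((cB n B i.castSucc - sl m τ i * cB n B 2) / 2 ^ m - p' i.castSucc) := by field_simp
      rw [e, abs_mul, abs_of_pos hD]
      calc _ ≤ 2 ^ m * (2 * r') := by gcongr; exact mm i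
        _ = _ := by push_cast; rw [hh]; ring
    obtain ⟨l, hl, dl⟩ := disc (8 * 2 ^ m) _ t2
    obtain ⟨l0, hl0, dl0⟩ := disc 8 _ (ui 0)
    obtain ⟨l1, hl1, dl1⟩ := disc 8 _ (ui 1)
    have d2 : |cB n B 2 - t l| ≤ h := by
      have e : cB n B 2 - t l = cB n B 2 - 2 ^ (2 * m) * p' 2 - (l * h - (8 * 2 ^ m : ℕ) * h) := by simp only [t]; ring
      rw [e]; exact dl
    have di : ∀ (i : Fin 2) (li : ℕ), |cB n B i.castSucc - sl m τ i * cB n B 2 - 2 ^ m * p' i.castSucc - (li * h - (8:ℕ) * h)| ≤ h →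
        |cB n B i.castSucc - (2 ^ m * p' i.castSucc + sl m τ i * t l + (li * h - (8:ℕ) * h))| ≤ 2 * h := by
      intro i li hli
      have e : cB n B i.castSucc - (2 ^ m * p' i.castSucc + sl m τ i * t l + (li * h - (8:ℕ) * h)) =
        (cB n B i.castSucc - sl m τ i * cB n B 2 - 2 ^ m * p' i.castSucc - (li * h - (8:ℕ) * h)) + sl m τ i * (cB n B 2 - t l) := by ring
      rw [e]
      refine (abs_add_le _ _).trans ?_
      rw [abs_mul, abs_of_nonneg (sl_nonneg hτ i)]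
      have h2 : sl m τ i * |cB n B 2 - t l| ≤ 1 * h := by
        gcongr; exact sl_le hτ i
      linarith
    rw [Finset.mem_biUnion]
    refine ⟨(l, l0, l1), ?_, Finset.mem_filter.2 ⟨hBY, ?_⟩⟩
    · rw [hIX]
      simp only [Finset.mem_product, Finset.mem_range]
      exact ⟨hl, hl0, hl1⟩
    · refine dist_le_of_abs _ _ (2 * h) (2 * h) h _ (by positivity) (di 0 l0 dl0) (di 1 l1 dl1) d2 ?_
      have e : 2 ^ m * r' = 4 * h := by rw [hh]; ring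
      rw [e]; nlinarith [mul_pos hh0 hh0]
  have hIXc : (IX.card : ℝ) ≤ 4913 * 2 ^ m := by
    rw [hIX, Finset.card_product, Finset.card_product, Finset.card_range, Finset.card_range]
    push_cast
    nlinarith
  calc (U.card : ℝ) ≤ ((IX.biUnion fun l => Y.filter fun B => dist (cB n B) (c l) ≤ 2 ^ m * r').card : ℝ) := by
        exact_mod_cast Finset.card_le_card hcov
    _ ≤ ∑ l ∈ IX, ((Y.filter fun B => dist (cB n B) (c l) ≤ 2 ^ m * r').card : ℝ) := by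
        exact_mod_cast Finset.card_biUnion_le
    _ ≤ ∑ l ∈ IX, γ * (2 ^ m * r') ^ 2 := by
        apply Finset.sum_le_sum
        intro l _
        exact hY _ _ hr5 hR
    _ = IX.card * (γ * (2 ^ m * r') ^ 2) := by rw [Finset.sum_const, nsmul_eq_mul]
    _ ≤ _ := by gcongr

/-- the dimension of the set of rich boxes of level `j` -/
theorem dim_boxj (k n j q : ℕ) (hk : j < k) (τ : Z2) (hτ : ∀ i, 0 ≤ τ i ∧ τ i < 2 ^ (j * n)) (Y Y' : Finset (Fin 3 → ℤ))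
    (γ : ℝ) (hγ : 0 < γ) (hY : Dim2 k n Y γ) (W : (Fin 3 → ℤ) → Finset (Fin 3 → ℤ))
    (hW : ∀ B' ∈ Y', 2 ^ q ≤ (W B').card ∧ ∀ B ∈ W B', B ∈ Y ∧ bx (j * n) τ B = B') :
    Dim2 (k - j) n Y' (4913 * 2 ^ (3 * (j * n)) / 2 ^ q * γ) := by
  classical
  intro r' p' hr1 hr2
  have hr0 : 0 < r' := lt_of_lt_of_le (by positivity) hr1
  have hD1 : (1:ℝ) ≤ 2 ^ (j * n) := one_le_pow₀ (by norm_num)
  have hD3 : (2:ℝ) ^ (3 * (j * n)) = 2 ^ (j * n) * 2 ^ (j * n) * 2 ^ (j * n) := by rw [← pow_add, ← pow_add]; congr 1; ring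
  set Z' := Y'.filter fun B' => dist (cB n B') p' ≤ r' with hZ'
  have hR : 2 ^ (j * n) * r' ≤ 2 ^ (2 * k * n) := by
    obtain ⟨d, rfl⟩ : ∃ d, k = j + d := ⟨k - j, by omega⟩
    rw [Nat.add_sub_cancel_left] at hr2
    calc (2:ℝ) ^ (j * n) * r' ≤ 2 ^ (j * n) * 2 ^ (2 * d * n) := by gcongr
      _ ≤ 2 ^ (2 * (j + d) * n) := by
          rw [← pow_add]
          apply pow_le_pow_right₀ (by norm_num)
          nlinarith [Nat.zero_le (j * n)]
  have hr5 : (2:ℝ) ^ (2 * n) ≤ 2 ^ (j * n) * r' := by nlinarith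
  have hcount := cover k n (j * n) τ hτ Y (Z'.biUnion W) γ hγ hY p' r' hr0 hr5 hR (by
    intro B hB
    rw [Finset.mem_biUnion] at hB
    obtain ⟨B', hB', hBW⟩ := hB
    rw [hZ', Finset.mem_filter] at hB'
    obtain ⟨hBY, hbx⟩ := (hW B' hB'.1).2 B hBW
    exact ⟨hBY, locj n (j * n) τ B p' r' hr1 (by rw [hbx]; exact hB'.2)⟩)
  have hdisj : (Z' : Set (Fin 3 → ℤ)).PairwiseDisjoint W := by
    intro B1 h1 B2 h2 hne
    rw [Function.onFun, Finset.disjoint_left]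
    intro B hB1 hB2
    apply hne
    have g1 := (Finset.mem_filter.1 (Finset.mem_coe.1 h1)).1
    have g2 := (Finset.mem_filter.1 (Finset.mem_coe.1 h2)).1
    rw [← ((hW B1 g1).2 B hB1).2, ← ((hW B2 g2).2 B hB2).2]
  have hlow : (2:ℝ) ^ q * Z'.card ≤ ((Z'.biUnion W).card : ℝ) := by
    rw [Finset.card_biUnion hdisj]
    push_cast
    calc (2:ℝ) ^ q * Z'.card = ∑ B' ∈ Z', (2:ℝ) ^ q := by rw [Finset.sum_const, nsmul_eq_mul]; ring
      _ ≤ _ := by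
          apply Finset.sum_le_sum
          intro B' hB'
          exact_mod_cast (hW B' (Finset.mem_filter.1 hB').1).1
  have h2q : (0:ℝ) < 2 ^ q := by positivity
  have hfin : (2:ℝ) ^ q * Z'.card ≤ 2 ^ q * (4913 * 2 ^ (3 * (j * n)) / 2 ^ q * γ * r' ^ 2) := by
    calc (2:ℝ) ^ q * Z'.card ≤ 4913 * 2 ^ (j * n) * (γ * (2 ^ (j * n) * r') ^ 2) := hlow.trans hcount
      _ = 2 ^ q * (4913 * 2 ^ (3 * (j * n)) / 2 ^ q * γ * r' ^ 2) := by rw [hD3]; field_simp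
  exact le_of_mul_le_mul_left hfin h2q

/-- number of cubes of `Y` in one box of level `j` -/
theorem card_boxj (k n j : ℕ) (hk : j + 2 ≤ k) (τ : Z2) (hτ : ∀ i, 0 ≤ τ i ∧ τ i < 2 ^ (j * n)) (Y U : Finset (Fin 3 → ℤ))
    (γ : ℝ) (hγ : 0 < γ) (hY : Dim2 k n Y γ) (B' : Fin 3 → ℤ) (hU : ∀ B ∈ U, B ∈ Y ∧ bx (j * n) τ B = B') :
    (U.card : ℝ) ≤ 4913 * γ * 2 ^ (3 * (j * n) + 4 * n) := by
  have hD1 : (1:ℝ) ≤ 2 ^ (j * n) := one_le_pow₀ (by norm_num)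
  have hR : (2:ℝ) ^ (j * n) * 2 ^ (2 * n) ≤ 2 ^ (2 * k * n) := by
    rw [← pow_add]
    apply pow_le_pow_right₀ (by norm_num)
    nlinarith [Nat.zero_le n]
  have hp : (0:ℝ) < 2 ^ (2 * n) := by positivity
  have h := cover k n (j * n) τ hτ Y U γ hγ hY (cB n B') (2 ^ (2 * n)) hp (by nlinarith) hR (by
    intro B hB
    obtain ⟨hBY, hbx⟩ := hU B hB
    refine ⟨hBY, locj n (j * n) τ B (cB n B') _ le_rfl ?_⟩
    rw [hbx, dist_self]; exact hp.le)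
  refine h.trans (le_of_eq ?_)
  have e : (2:ℝ) ^ (3 * (j * n) + 4 * n) = 2 ^ (j * n) * (2 ^ (j * n) * 2 ^ (2 * n)) ^ 2 := by
    rw [← pow_add, ← pow_mul, ← pow_add]; congr 1; ring
  rw [e]; ring

end Vale.Agent.P076.H879
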