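import Vale.Agent.P076.H879.ScG
import Vale.Agent.P076.H926.Loc
import Vale.Agent.P076.H429.RescW

/-! # P076 / H879 : a cap of level `j` is constant on the unit cells of its own coordinates -/

set_option autoImplicit false

open MeasureTheory Complex Set Vale.Agent.P122.C2 Vale.Agent.P122.AN Vale.Agent.P076.NS Vale.Agent.P076.H429
open scoped ENNReal NNReal FourierTransform

namespace Vale.Agent.P076.H879

theorem holder6 {f w : E3 → ℝ≥0∞} (hf : Measurable f) (hw : Measurable w) :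
    (∫⁻ z, f z ^ 2 * w z) ^ 3 ≤ (∫⁻ z, w z) ^ 2 * ∫⁻ z, f z ^ 6 * w z := by
  have hpq : (3:ℝ).HolderConjugate (3 / 2) := by
    rw [Real.holderConjugate_iff]; norm_num
  have h := ENNReal.lintegral_mul_le_Lp_mul_Lq volume hpq
    (f := fun z => f z ^ 2 * w z ^ (1 / 3 : ℝ)) (g := fun z => w z ^ (2 / 3 : ℝ))
    (Measurable.aemeasurable (Measurable.mul (hf.pow_const 2) (hw.pow_const (1 / 3 : ℝ)))) (hw.pow_const (2 / 3 : ℝ)).aemeasurable
  have e1 : ∀ z, ((fun z => f z ^ 2 * w z ^ (1 / 3 : ℝ)) * (fun z => w z ^ (2 / 3 : ℝ))) z = f z ^ 2 * w z := by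
    intro z
    simp only [Pi.mul_apply]
    rw [mul_assoc, ← ENNReal.rpow_add_of_nonneg _ _ (by norm_num) (by norm_num)]
    norm_num
  have e2 : ∀ z, (f z ^ 2 * w z ^ (1 / 3 : ℝ)) ^ (3:ℝ) = f z ^ 6 * w z := by
    intro z
    rw [ENNReal.mul_rpow_of_nonneg _ _ (by norm_num), ← ENNReal.rpow_mul, ← ENNReal.rpow_natCast, ← ENNReal.rpow_mul,
      ← ENNReal.rpow_natCast]
    norm_num
  have e3 : ∀ z, (w z ^ (2 / 3 : ℝ)) ^ (3 / 2 : ℝ) = w z := by
    intro z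
    rw [← ENNReal.rpow_mul]; norm_num
  simp only [e1, e2, e3] at h
  have h3 := pow_le_pow_left₀ (zero_le) h 3
  refine h3.trans (le_of_eq ?_)
  rw [mul_pow, ← ENNReal.rpow_natCast, ← ENNReal.rpow_mul, ← ENNReal.rpow_natCast ((∫⁻ z, w z) ^ (1 / (3 / 2) : ℝ)), ← ENNReal.rpow_mul,
    ← ENNReal.rpow_natCast (∫⁻ z, w z) 2]
  norm_num
  rw [mul_comm]

theorem rep6 (M : ℕ) (hM : 4 ≤ M) (C0 : ℝ) (hC : 1 ≤ C0) : ∃ C : ℝ, 0 ≤ C ∧ ∀ (k n : ℕ) (g : Z2 → E3 → ℂ), Par C0 k n g →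
    ∀ (B' : Fin 3 → ℤ) (y : E3), ‖pie k n g 0 0 y‖ₑ ^ 6 ≤
      ENNReal.ofReal (C * (1 + H926.l1 (y - cB n B') / 2 ^ (2 * n)) ^ M * 2 ^ (6 * n)) * b6 M n B' (pie k n g 0 0) := by
  obtain ⟨C1, hC1, H⟩ := Vale.Agent.P122.R301.stREP M (cD C0) (by unfold cD; positivity)
  obtain ⟨C2, hC2, HW⟩ := Vale.Agent.P122.W840.stWI
  refine ⟨C1 ^ 3 * C2 ^ 2, by positivity, ?_⟩
  intro k n g hg B' y
  obtain ⟨ξ0, hξ0⟩ := Vale.Agent.P122.AN275.dual_ex (c := cD C0) (H926.srfP hC) hg hC le_rfl (Nat.zero_le k) (0 : Z2)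
  have es : slp n 0 (0 : Z2) = 0 := by funext i; unfold slp; simp
  simp only [zero_mul, pow_zero, mul_zero, es] at hξ0
  have h1 := H 0 1 1 1 0 ξ0 (gs k n g 0 0) one_pos one_pos one_pos (integrable_gs hg.int 0 0) hξ0 y
  rw [inv_gs hg.int] at h1
  set f := pie k n g 0 0 with hf
  have hfm : Measurable fun z => ‖f z‖ₑ := (continuous_pie hg.int 0 0).enorm.measurable
  have hwm : Measurable fun z => wg M 0 1 1 1 0 (y - z) :=
    (Vale.Agent.P122.AN275.measurable_wg M 0 1 1 1 0).comp (measurable_const.sub measurable_id)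
  have h2 := holder6 hfm hwm
  have hint : ∫⁻ z, wg M 0 1 1 1 0 (y - z) ≤ ENNReal.ofReal C2 := by
    have e : ∀ z, wg M 0 1 1 1 0 (y - z) = wg M 0 1 1 1 0 (z - y) := by
      intro z
      unfold wg
      rw [← neg_sub z y, Vale.Agent.P122.AN275.gau_neg]
    simp only [e]
    have := HW M 0 1 1 1 0 y hM one_pos one_pos one_pos
    simpa using this
  have hw2 : ∀ z, wg M 0 1 1 1 0 (y - z) ≤ ENNReal.ofReal ((1 + H926.l1 (y - cB n B') / 2 ^ (2 * n)) ^ M) * wB M n B' z := by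
    intro z
    rw [H926.wB_eq]
    unfold wg
    rw [H926.gau_ball, ← ENNReal.ofReal_mul (by have := H926.l1_nonneg (y - cB n B'); positivity)]
    apply ENNReal.ofReal_le_ofReal
    have a1 := H926.l1_nonneg (y - cB n B')
    have a2 := H926.l1_nonneg (y - z)
    have a3 := H926.l1_nonneg (z - cB n B')
    have hp : (1:ℝ) ≤ 2 ^ (2 * n) := one_le_pow₀ (by norm_num)
    have hp0 : (0:ℝ) < 2 ^ (2 * n) := by positivity
    have tri : H926.l1 (z - cB n B') ≤ H926.l1 (y - z) + H926.l1 (y - cB n B') := by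
      have e : z - cB n B' = -(y - z) + (y - cB n B') := by abel
      rw [e]
      refine (H926.l1_add _ _).trans ?_
      rw [H926.l1_neg]
    rw [div_one, ← div_eq_mul_inv, inv_eq_one_div, div_le_div_iff₀ (by positivity) (by positivity), one_mul, ← mul_pow]
    apply pow_le_pow_left₀ (by positivity)
    have b1 : H926.l1 (z - cB n B') / 2 ^ (2 * n) ≤ H926.l1 (y - z) + H926.l1 (y - cB n B') / 2 ^ (2 * n) := by
      rw [div_le_iff₀ hp0, add_mul, div_mul_cancel₀ _ hp0.ne']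
      nlinarith
    have b2 : 0 ≤ H926.l1 (y - cB n B') / 2 ^ (2 * n) := by positivity
    nlinarith
  calc ‖f y‖ₑ ^ 6 = (‖f y‖ₑ ^ 2) ^ 3 := by ring
    _ ≤ (ENNReal.ofReal (C1 * (1 * 1 * 1)⁻¹) * ∫⁻ z, ‖f z‖ₑ ^ 2 * wg M 0 1 1 1 0 (y - z)) ^ 3 := pow_le_pow_left₀ zero_le h1 3
    _ = ENNReal.ofReal (C1 ^ 3) * (∫⁻ z, ‖f z‖ₑ ^ 2 * wg M 0 1 1 1 0 (y - z)) ^ 3 := by
        rw [mul_pow, ENNReal.ofReal_pow hC1]; norm_num
    _ ≤ ENNReal.ofReal (C1 ^ 3) * (ENNReal.ofReal C2 ^ 2 * ∫⁻ z, ‖f z‖ₑ ^ 6 * wg M 0 1 1 1 0 (y - z)) := by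
        gcongr
        refine h2.trans ?_
        gcongr
    _ ≤ ENNReal.ofReal (C1 ^ 3) * (ENNReal.ofReal C2 ^ 2 * (ENNReal.ofReal ((1 + H926.l1 (y - cB n B') / 2 ^ (2 * n)) ^ M) *
          ∫⁻ z, ‖f z‖ₑ ^ 6 * wB M n B' z)) := by
        gcongr
        exact H926.lint_shift_wt ENNReal.ofReal_ne_top hw2
    _ = _ := by
        unfold b6
        have a1 := H926.l1_nonneg (y - cB n B')
        set A : ℝ := (1 + H926.l1 (y - cB n B') / 2 ^ (2 * n)) ^ M with hA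
        have hA0 : 0 ≤ A := by positivity
        rw [← mul_assoc (ENNReal.ofReal (C1 ^ 3 * C2 ^ 2 * A * 2 ^ (6 * n))), ← ENNReal.ofReal_mul (by positivity),
          ← ENNReal.ofReal_pow hC2, ← mul_assoc, ← mul_assoc, ← ENNReal.ofReal_mul (by positivity), ← ENNReal.ofReal_mul (by positivity)]
        congr 2
        field_simp

/-- transfer to the coordinates of the cap, with a loss of `D ^ 6` but NO loss in `j` -/
theorem b6_unit (M : ℕ) (hM : 4 ≤ M) (C0 : ℝ) (hC : 1 ≤ C0) : ∃ C : ℝ, 1 ≤ C ∧ ∀ (k n j : ℕ) (g : Z2 → E3 → ℂ) (τ : Z2)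
    (B : Fin 3 → ℤ), j ≤ k → Par C0 k n g → (∀ i, 0 ≤ τ i ∧ τ i < 2 ^ (j * n)) →
    b6 (M + 4) n B (pie k n g j τ) ≤
      ENNReal.ofReal (C * 2 ^ (6 * n)) * b6 M n (bx (j * n) τ B) (pie (k - j) n (rsp k n j g τ) 0 0) := by
  obtain ⟨C1, hC1, H1⟩ := rep6 M hM C0 hC
  obtain ⟨C2, hC2, H2⟩ := H926.b6_le_of
  refine ⟨max 1 (C2 * (C1 * 4 ^ M)), le_max_left _ _, ?_⟩
  intro k n j g τ B hj hg hτ
  have hg' := Par_rsp hg hj τ
  set f' := pie (k - j) n (rsp k n j g τ) 0 0 with hf'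
  set B' := bx (j * n) τ B with hB'
  have h := H2 (M + 4) n B (pie k n g j τ) (ENNReal.ofReal (C1 * 4 ^ M * 2 ^ (6 * n)) * b6 M n B' f') ?_
  · refine h.trans ?_
    rw [← mul_assoc, ← ENNReal.ofReal_mul hC2]
    refine mul_le_mul' (ENNReal.ofReal_le_ofReal ?_) le_rfl
    calc C2 * (C1 * 4 ^ M * 2 ^ (6 * n)) = C2 * (C1 * 4 ^ M) * 2 ^ (6 * n) := by ring
      _ ≤ _ := by gcongr; exact le_max_right _ _
  intro z
  set y : E3 := AL (sc n j) (slp n j τ) z with hy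
  have e1 : ‖pie k n g j τ z‖ₑ = ‖f' y‖ₑ := enorm_pie_rsp_self hj τ z
  have h1 := H1 (k - j) n (rsp k n j g τ) hg' B' y
  have hp0 : (0:ℝ) < 2 ^ (2 * n) := by positivity
  have x0 := H926.l1_nonneg (z - cB n B)
  have y0 := H926.l1_nonneg (y - cB n B')
  set x : ℝ := H926.l1 (z - cB n B) / 2 ^ (2 * n) with hx
  have hx0 : 0 ≤ x := by positivity
  -- comparison of the distances
  have hcmp : 1 + H926.l1 (y - cB n B') / 2 ^ (2 * n) ≤ 4 * (1 + x) := by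
    have hm : (0:ℝ) < 2 ^ (j * n) := by positivity
    have hm1 : (1:ℝ) ≤ 2 ^ (j * n) := one_le_pow₀ (by norm_num)
    have hm2 : (1:ℝ) ≤ 2 ^ (2 * (j * n)) := one_le_pow₀ (by norm_num)
    obtain ⟨mm, m2⟩ := bxj_pos n (j * n) τ B
    rw [← hB'] at mm m2
    have hy0' : y 0 = (z 0 - sl (j * n) τ 0 * z 2) / 2 ^ (j * n) := by
      rw [hy, AL_zero]; unfold sc slp sl; field_simp
    have hy1' : y 1 = (z 1 - sl (j * n) τ 1 * z 2) / 2 ^ (j * n) := by
      rw [hy, AL_one]; unfold sc slp sl; field_simp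
    have hy2' : y 2 = z 2 / 2 ^ (2 * (j * n)) := by
      rw [hy, AL_two]; unfold sc; rw [inv_pow, ← pow_mul]; rw [mul_comm (j * n) 2]; field_simp
    have b01 : ∀ (i : Fin 2) (yi zi : ℝ), yi = (zi - sl (j * n) τ i * z 2) / 2 ^ (j * n) →
        |yi - cB n B' i.castSucc| ≤ |zi - cB n B i.castSucc| + |z 2 - cB n B 2| + 2 ^ (2 * n) := by
      intro i yi zi hyi
      have mi := mm i
      have e : yi - cB n B' i.castSucc = ((cB n B i.castSucc - sl (j * n) τ i * cB n B 2) / 2 ^ (j * n) - cB n B' i.castSucc) +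
          ((zi - cB n B i.castSucc) - sl (j * n) τ i * (z 2 - cB n B 2)) / 2 ^ (j * n) := by
        rw [hyi]; ring
      rw [e]
      refine (abs_add_le _ _).trans ?_
      rw [abs_of_nonneg mi.1, abs_div, abs_of_pos hm]
      have c1 : |zi - cB n B i.castSucc - sl (j * n) τ i * (z 2 - cB n B 2)| / 2 ^ (j * n) ≤
          |zi - cB n B i.castSucc - sl (j * n) τ i * (z 2 - cB n B 2)| := div_le_self (abs_nonneg _) hm1
      have c2 : |zi - cB n B i.castSucc - sl (j * n) τ i * (z 2 - cB n B 2)| ≤ |zi - cB n B i.castSucc| + |z 2 - cB n B 2| := by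
        refine (abs_sub _ _).trans (add_le_add le_rfl ?_)
        rw [abs_mul, abs_of_nonneg (sl_nonneg hτ i)]
        exact mul_le_of_le_one_left (abs_nonneg _) (sl_le hτ i)
      linarith [mi.2]
    have b0 := b01 0 (y 0) (z 0) hy0'
    have b1 := b01 1 (y 1) (z 1) hy1'
    simp only [Fin.castSucc_zero, Fin.castSucc_one] at b0 b1
    have b2 : |y 2 - cB n B' 2| ≤ |z 2 - cB n B 2| + 2 ^ (2 * n) := by
      have e : y 2 - cB n B' 2 = (cB n B 2 / 2 ^ (2 * (j * n)) - cB n B' 2) + (z 2 - cB n B 2) / 2 ^ (2 * (j * n)) := by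
        rw [hy2']; ring
      rw [e]
      refine (abs_add_le _ _).trans ?_
      rw [abs_of_nonneg m2.1, abs_div, abs_of_pos (by positivity : (0:ℝ) < 2 ^ (2 * (j * n)))]
      have c1 : |z 2 - cB n B 2| / 2 ^ (2 * (j * n)) ≤ |z 2 - cB n B 2| := div_le_self (abs_nonneg _) hm2
      linarith [m2.2]
    have s1 : H926.l1 (y - cB n B') = |y 0 - cB n B' 0| + |y 1 - cB n B' 1| + |y 2 - cB n B' 2| := rfl
    have s2 : H926.l1 (z - cB n B) = |z 0 - cB n B 0| + |z 1 - cB n B 1| + |z 2 - cB n B 2| := rfl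
    have s3 : H926.l1 (y - cB n B') ≤ 3 * H926.l1 (z - cB n B) + 3 * 2 ^ (2 * n) := by
      rw [s1, s2]
      have := abs_nonneg (z 0 - cB n B 0)
      have := abs_nonneg (z 1 - cB n B 1)
      linarith
    have s4 : H926.l1 (y - cB n B') / 2 ^ (2 * n) ≤ 3 * x + 3 := by
      rw [div_le_iff₀ hp0, hx, add_mul, mul_assoc, div_mul_cancel₀ _ hp0.ne']
      linarith
    linarith
  rw [e1]
  calc ‖f' y‖ₑ ^ 6 * wB (M + 4) n B z
      ≤ (ENNReal.ofReal (C1 * (4 * (1 + x)) ^ M * 2 ^ (6 * n)) * b6 M n B' f') * wB (M + 4) n B z := by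
        gcongr
        refine h1.trans ?_
        gcongr
    _ = _ := by
        rw [H926.wB_eq, H926.wB_eq, ← hx, mul_right_comm, ← ENNReal.ofReal_mul (by positivity), mul_right_comm (ENNReal.ofReal (C1 * 4 ^ M * 2 ^ (6 * n))),
          ← ENNReal.ofReal_mul (by positivity)]
        congr 2
        rw [mul_pow, pow_add]
        field_simp

end Vale.Agent.P076.H879
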