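import Vale.Agent.P076.H879.Sc

/-! # P076: the block SC in the form of `H322.STDefs` -/

set_option autoImplicit false

namespace Vale.Agent.P076.H879

/-- **[SC]** one single cap of level `j` at every cube -/
theorem stSC (hk : H322.StKPG) : H322.StSC := sc_of hk

end Vale.Agent.P076.H879
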